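import Crest.Agent.X261.Uen.Gen
import Crest.Agent.X261.Plk.C
import Crest.Agent.X261.Bog.Defs
import Crest.Agent.R273.HolF_578
import Crest.Agent.R273.UCovC_914

/-!
X261 / Uen / Wdg (helper80): the holomorphic forms `d(l₁ ∘ F) ∧ … ∧ d(l_p ∘ F)`.
-/

set_option autoImplicit false
set_option linter.unusedSectionVars false

open Set Filter Topology Metric Module
open scoped Matrix

noncomputable section

namespace Crest.Agent.X261.Uen

open Crest.Agent.X261.Uen.Dev
open Crest.Agent.R275.Geo Crest.Agent.R275.Core144 Crest.Agent.R273.Fock_243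
open Crest.Agent.R273.HolF_578 (Om)
open Crest.Agent.X261.Bog (Par)

variable {n : ℕ} {M : Type} [TopologicalSpace M] {A : Atl n M}
  {W : Type} [NormedAddCommGroup W] [NormedSpace ℂ W] [FiniteDimensional ℂ W]

/-- coefficients of a covector -/
def cvD (n : ℕ) : Module.Dual ℂ (Cn n) →ₗ[ℂ] (Fin n → ℂ) where
  toFun L b := L (EuclideanSpace.single b 1)
  map_add' _ _ := rfl
  map_smul' _ _ := rfl

/-- coefficients of a continuous covector -/
def cv (n : ℕ) : (Cn n →L[ℂ] ℂ) →ₗ[ℂ] (Fin n → ℂ) := cvD n ∘ₗ ContinuousLinearMap.coeLM ℂ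

theorem cv_apply (L : Cn n →L[ℂ] ℂ) (b : Fin n) : cv n L b = L (EuclideanSpace.single b 1) := rfl

theorem cn_sum (v : Cn n) : v = ∑ b, v b • EuclideanSpace.single b (1 : ℂ) := by
  ext c
  simp [Pi.single_apply]

theorem cv_ker : LinearMap.ker (cv n) = ⊥ := by
  refine LinearMap.ker_eq_bot'.2 fun L hL => ?_
  ext v
  rw [cn_sum v, map_sum]
  refine Finset.sum_eq_zero fun b _ => ?_
  rw [map_smul, ← cv_apply, hL]
  simp

theorem cv_comp (L : Cn n →L[ℂ] ℂ) (T : Cn n →L[ℂ] Cn n) :
    cv n (L.comp T) = (Matrix.of fun b a => T (EuclideanSpace.single a 1) b)ᵀ *ᵥ cv n L := by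
  funext a
  rw [cv_apply, ContinuousLinearMap.comp_apply, cn_sum (T _), map_sum]
  simp [Matrix.mulVec, dotProduct, cv_apply]

variable {p : ℕ}

theorem an_wdg {E : Type} [NormedAddCommGroup E] [NormedSpace ℂ E] {z : E}
    {v : E → Fin p → Fin n → ℂ} (h : ∀ a b, AnalyticAt ℂ (fun w => v w a b) z) (T : FI n) :
    AnalyticAt ℂ (fun w => Top.wdg (v w) T) z := by
  unfold Top.wdg
  by_cases hT : T.card = p
  · simp only [dif_pos hT, Matrix.det_apply', Matrix.of_apply]
    exact Finset.analyticAt_fun_sum _ fun σ _ =>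
      analyticAt_const.mul (Finset.analyticAt_fun_prod _ fun k _ => h _ _)
  · simp only [dif_neg hT]
    exact analyticAt_const

theorem par_smul {ι : Type*} (u : ι → ℂ) (c : ℂ) : Par u (c • u) := fun S T => by
  simp only [Pi.smul_apply, smul_eq_mul]; ring

theorem par_wdg {T : Cn n →L[ℂ] W} (hT : finrank ℂ (LinearMap.range (T : Cn n →ₗ[ℂ] W)) ≤ p)
    (l l' : Fin p → W →L[ℂ] ℂ) :
    Par (Top.wdg fun a => cv n ((l a).comp T)) (Top.wdg fun a => cv n ((l' a).comp T)) := by
  by_cases h : LinearIndependent ℂ fun a => cv n ((l a).comp T)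
  · set S := (LinearMap.range (T : Cn n →ₗ[ℂ] W).dualMap).map (cvD n) with hS
    have h1 : ∀ m : W →L[ℂ] ℂ, cv n (m.comp T) ∈ S := fun m =>
      ⟨_, ⟨(m : W →ₗ[ℂ] ℂ), rfl⟩, rfl⟩
    have h2 : finrank ℂ S ≤ p := (Submodule.finrank_map_le _ _).trans
      ((LinearMap.finrank_range_dualMap_eq_finrank_range _).le.trans hT)
    have h3 : Submodule.span ℂ (range fun a => cv n ((l a).comp T)) = S := by
      refine Submodule.eq_of_le_of_finrank_le (Submodule.span_le.2 ?_) ?_
      · rintro _ ⟨a, rfl⟩; exact h1 _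
      · rw [finrank_span_eq_card h, Fintype.card_fin]; exact h2
    obtain ⟨c, hc⟩ := Plk.wdg_par (v := fun a => cv n ((l' a).comp T))
      (π := fun a => cv n ((l a).comp T)) fun k => by rw [h3]; exact h1 _
    rw [hc]
    exact par_smul _ _
  · rw [← Plk.twdg_ne_zero_iff, not_not] at h
    rw [h]
    intro S T
    simp

theorem wdg_update (v : Fin p → Fin n → ℂ) (j : Fin p) (c : Fin p → ℂ) :
    Top.wdg (Function.update v j (∑ a, c a • v a)) = c j • Top.wdg v := by
  rw [Plk.wdg_eq, Plk.wdg_eq, AlternatingMap.map_update_sum, Finset.sum_eq_single j,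
    AlternatingMap.map_update_smul, Function.update_eq_self, Matrix.smul_mulVec]
  · intro b _ hb
    rw [AlternatingMap.map_update_smul, AlternatingMap.map_update_self _ _ hb.symm, smul_zero]
  · simp

open Classical in
/-- the form `d(l₁ ∘ F) ∧ … ∧ d(l_p ∘ F)` -/
def fm (A : Atl n M) (F : M → W) (l : Fin p → W →L[ℂ] ℂ) : A.ι → M → FI n → ℂ := fun i x =>
  if x ∈ (A.e i).source then Top.wdg fun a => cv n ((l a).comp (dF A i F x)) else 0

variable {F : M → W} {i : A.ι} {x : M}

theorem fm_of_mem (l : Fin p → W →L[ℂ] ℂ) (hx : x ∈ (A.e i).source) :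
    fm A F l i x = Top.wdg fun a => cv n ((l a).comp (dF A i F x)) := if_pos hx

theorem fm_of_not (l : Fin p → W →L[ℂ] ℂ) (hx : x ∉ (A.e i).source) : fm A F l i x = 0 :=
  if_neg hx

theorem HolV.fm_mem (h : HolV A F) (l : Fin p → W →L[ℂ] ℂ) : fm A F l ∈ Om A p := by
  have : CompleteSpace W := FiniteDimensional.complete ℂ W
  refine ⟨fun i T => ?_, fun i x hx => fm_of_not l hx, fun i x T hT => ?_, fun i j x hx => ?_⟩
  · have h1 : ∀ z ∈ (A.e i).target, AnalyticAt ℂ (fun w => Top.wdg (fun a => cv n ((l a).comp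
        (fderiv ℂ (fun z => F ((A.e i).symm z)) w))) T) z := fun z hz =>
      an_wdg (fun a b => ((l a).analyticAt _).comp
        (an_apply (an_fd (h.an i z hz)) analyticAt_const)) T
    refine DifferentiableOn.congr (fun z hz => (h1 z hz.1).differentiableAt.differentiableWithinAt)
      fun z hz => ?_
    change fm A F l i ((A.e i).symm z) T = _
    rw [fm_of_mem l ((A.e i).map_target hz.1), dF_symm F hz.1]
  · by_cases hx : x ∈ (A.e i).source
    · rw [fm_of_mem l hx]; exact Plk.deg_wdg _ T hT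
    · rw [fm_of_not l hx]; rfl
  · rw [fm_of_mem l hx.1, fm_of_mem l hx.2, Plk.Gam_wdg, h.dF_chg hx.1 hx.2]
    congr 1
    funext a
    rw [← ContinuousLinearMap.comp_assoc, cv_comp]
    rfl

theorem fm_ne {l : Fin p → W →L[ℂ] ℂ} (hx : x ∈ (A.e i).source)
    (h : LinearIndependent ℂ fun a => (l a).comp (dF A i F x)) : fm A F l i x ≠ 0 := by
  rw [fm_of_mem l hx, Plk.twdg_ne_zero_iff]
  exact h.map' (cv n) cv_ker

theorem fm_update {m : Fin p → W →L[ℂ] ℂ} {l : W →L[ℂ] ℂ} (hx : x ∈ (A.e i).source) (j : Fin p)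
    {c : Fin p → ℂ} (h : l.comp (dF A i F x) = ∑ a, c a • (m a).comp (dF A i F x)) :
    fm A F (Function.update m j l) i x = c j • fm A F m i x := by
  rw [fm_of_mem _ hx, fm_of_mem _ hx, ← wdg_update]
  congr 1
  funext a
  by_cases ha : a = j
  · subst ha
    rw [Function.update_self, Function.update_self, h, map_sum]
    simp only [map_smul]
  · rw [Function.update_of_ne ha, Function.update_of_ne ha]

/-- a holomorphic map with vanishing differential is constant -/
theorem HolV.const [PreconnectedSpace M] (h : HolV A F) (h0 : ∀ x, Tg A F x = ⊥) (x y : M) :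
    F x = F y := by
  refine IsLocallyConstant.apply_eq_of_preconnectedSpace
    ((IsLocallyConstant.iff_eventually_eq F).2 fun x => ?_) x y
  obtain ⟨i, hi⟩ := A.cover x
  obtain ⟨ρ, hρ, hb⟩ := Metric.isOpen_iff.1 (A.e i).open_target _ ((A.e i).map_source hi)
  refine ev_chart hi (P := fun y => F y = F x) ?_
  filter_upwards [ball_mem_nhds _ hρ] with z hz
  have h1 := isOpen_ball.is_const_of_fderiv_eq_zero (𝕜 := ℂ) (convex_ball _ ρ).isPreconnected
    ((h i).mono hb) (fun w hw => by
      have h2 := h0 ((A.e i).symm w)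
      rw [h.tg_eq ((A.e i).map_target (hb hw)), dF_symm F (hb hw), LinearMap.range_eq_bot] at h2
      exact ContinuousLinearMap.coe_injective h2) hz (mem_ball_self hρ)
  rwa [(A.e i).left_inv hi] at h1

/-- a spanning subgroup is cocompact -/
theorem exists_cocpt {Λ : AddSubgroup W} (h : Submodule.span ℝ (Λ : Set W) = ⊤) :
    ∃ R : ℝ, ∀ w : W, ∃ l ∈ Λ, ‖w - l‖ ≤ R := by
  have : FiniteDimensional ℝ W := FiniteDimensional.complexToReal W
  set b := Basis.ofSpan h.ge with hb
  have := Module.Finite.finite_basis b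
  have := Fintype.ofFinite (↑((linearIndepOn_empty ℝ id).extend (empty_subset (Λ : Set W))))
  refine ⟨_, fun w => ⟨ZSpan.floor b w, ?_, ZSpan.norm_fract_le b w⟩⟩
  have h1 : Submodule.span ℤ (range b) ≤ Λ.toIntSubmodule :=
    Submodule.span_le.2 (Basis.ofSpan_subset h.ge)
  exact h1 (ZSpan.floor b w).2

end Crest.Agent.X261.Uen
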