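import Mathlib

/-!
X261 / Uen / Sub (helper80): closed subgroups of a finite dimensional real vector space which
contain a cocompact subgroup `Λ`: the closure of `L + Λ` (`L` a subspace) contains a subspace
spanned by finitely many elements of `Λ` and containing `L`.
-/

set_option autoImplicit false
set_option linter.unusedSectionVars false

open Set Filter Topology Metric

noncomputable section

namespace Crest.Agent.X261.Uen.Sub

variable {W : Type*} [NormedAddCommGroup W] [NormedSpace ℝ W] [FiniteDimensional ℝ W]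

/-- the largest subspace contained in the subgroup `G` -/
def lin (G : AddSubgroup W) : Submodule ℝ W where
  carrier := {h | ∀ s : ℝ, s • h ∈ G}
  add_mem' := fun {a b} ha hb s => by rw [smul_add]; exact G.add_mem (ha s) (hb s)
  zero_mem' := fun s => by rw [smul_zero]; exact G.zero_mem
  smul_mem' := fun c a ha s => by rw [smul_smul]; exact ha _

theorem mem_of_lin {G : AddSubgroup W} {h : W} (hh : h ∈ lin G) : h ∈ G := by
  have := hh 1
  rwa [one_smul] at this

/-- a closed subgroup which accumulates at `0` inside the subspace `C` contains a line of `C` -/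
theorem exists_line {G : AddSubgroup W} (hG : IsClosed (G : Set W)) (C : Submodule ℝ W)
    (h : ∀ ε > 0, ∃ a ∈ G, a ∈ C ∧ a ≠ 0 ∧ ‖a‖ < ε) : ∃ u ∈ C, u ≠ 0 ∧ u ∈ lin G := by
  have : ProperSpace W := FiniteDimensional.proper ℝ W
  have h1 : ∀ k : ℕ, ∃ a ∈ G, a ∈ C ∧ a ≠ 0 ∧ ‖a‖ < 1 / ((k : ℝ) + 1) :=
    fun k => h _ (by positivity)
  choose a haG haC ha0 han using h1
  set e : ℕ → W := fun k => ‖a k‖⁻¹ • a k with he
  have hpos : ∀ k, 0 < ‖a k‖ := fun k => norm_pos_iff.2 (ha0 k)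
  have hes : ∀ k, e k ∈ sphere (0 : W) 1 := by
    intro k
    rw [mem_sphere_zero_iff_norm, he]
    simp only [norm_smul, norm_inv, norm_norm]
    exact inv_mul_cancel₀ (hpos k).ne'
  obtain ⟨u, hu, φ, hφ, hlim⟩ := (isCompact_sphere (0 : W) 1).tendsto_subseq hes
  have hCc : IsClosed (C : Set W) := C.closed_of_finiteDimensional
  refine ⟨u, hCc.mem_of_tendsto hlim (Eventually.of_forall fun k => C.smul_mem _ (haC _)), ?_, ?_⟩
  · intro h0
    rw [h0] at hu
    simp at hu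
  · intro s
    have ha : Tendsto (fun k => ‖a (φ k)‖) atTop (𝓝 0) := by
      have h2 : Tendsto (fun k => ‖a k‖) atTop (𝓝 0) :=
        squeeze_zero (fun k => norm_nonneg _) (fun k => (han k).le)
          tendsto_one_div_add_atTop_nhds_zero_nat
      exact h2.comp hφ.tendsto_atTop
    set c : ℕ → ℝ := fun k => (⌊s / ‖a k‖⌋ : ℝ) * ‖a k‖ with hc
    have hcs : ∀ k, |c k - s| ≤ ‖a k‖ := by
      intro k
      have h3 := Int.floor_le (s / ‖a k‖)
      have h4 := Int.lt_floor_add_one (s / ‖a k‖)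
      have h5 : s = s / ‖a k‖ * ‖a k‖ := (div_mul_cancel₀ s (hpos k).ne').symm
      rw [abs_le]
      constructor
      · have := mul_le_mul_of_nonneg_right h4.le (hpos k).le
        simp only [hc]; nlinarith
      · have := mul_le_mul_of_nonneg_right h3 (hpos k).le
        simp only [hc]; nlinarith [hpos k]
    have hcl : Tendsto (fun k => c (φ k)) atTop (𝓝 s) := by
      rw [tendsto_iff_norm_sub_tendsto_zero]
      exact squeeze_zero (fun k => norm_nonneg _) (fun k => hcs _) ha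
    refine hG.mem_of_tendsto (hcl.smul hlim) (Eventually.of_forall fun k => ?_)
    have h6 : c (φ k) • (e ∘ φ) k = (⌊s / ‖a (φ k)‖⌋ : ℤ) • a (φ k) := by
      simp only [hc, he, Function.comp, smul_smul]
      rw [mul_assoc, mul_inv_cancel₀ (hpos _).ne', mul_one, Int.cast_smul_eq_zsmul]
    change c (φ k) • (e ∘ φ) k ∈ G
    rw [h6]
    exact G.zsmul_mem (haG _) _

/-- a bounded separated set is finite -/
theorem finite_of_sep {S : Set W} {ε R : ℝ} (hε : 0 < ε) (hb : ∀ a ∈ S, ‖a‖ ≤ R)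
    (hs : ∀ a ∈ S, ∀ b ∈ S, ‖a - b‖ < ε → a = b) : S.Finite := by
  have : ProperSpace W := FiniteDimensional.proper ℝ W
  have h1 : TotallyBounded S :=
    (isCompact_closedBall (0 : W) R).totallyBounded.subset fun a ha =>
      mem_closedBall_zero_iff.2 (hb a ha)
  obtain ⟨t, ht, hcov⟩ := Metric.totallyBounded_iff.1 h1 (ε / 2) (by positivity)
  refine (ht.biUnion (t := fun y => S ∩ ball y (ε / 2)) fun y _ => ?_).subset ?_
  · refine Set.Subsingleton.finite ?_
    rintro a ⟨ha, ha'⟩ b ⟨hb', hb''⟩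
    refine hs a ha b hb' ?_
    rw [← dist_eq_norm]
    have := dist_triangle_right a b y
    rw [mem_ball] at ha' hb''
    linarith
  · intro a ha
    obtain ⟨y, hy, hay⟩ := mem_iUnion₂.1 (hcov ha)
    exact mem_iUnion₂.2 ⟨y, hy, ha, hay⟩

/-- the linear part of a closed subgroup containing a cocompact subgroup `Λ` is spanned by `Λ` -/
theorem lin_eq_span {G Λ : AddSubgroup W} (hG : IsClosed (G : Set W)) (hΛ : Λ ≤ G) {R : ℝ}
    (hR : ∀ w : W, ∃ l ∈ Λ, ‖w - l‖ ≤ R) :
    lin G = Submodule.span ℝ ((Λ : Set W) ∩ lin G) := by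
  refine le_antisymm ?_ (Submodule.span_le.2 inter_subset_right)
  set H := Submodule.span ℝ ((Λ : Set W) ∩ lin G) with hH
  obtain ⟨C, hC⟩ := (lin G).exists_isCompl
  set P : W →L[ℝ] W := LinearMap.toContinuousLinearMap
    (C.subtype ∘ₗ Submodule.projectionOnto C (lin G) hC.symm) with hP
  have hPC : ∀ w, P w ∈ C := fun w => (Submodule.projectionOnto C (lin G) hC.symm w).2
  have hP0 : ∀ w ∈ lin G, P w = 0 := by
    intro w hw
    change ((Submodule.projectionOnto C (lin G) hC.symm w : C) : W) = 0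
    rw [Submodule.projectionOnto_apply_of_mem_right hC.symm hw]; rfl
  have hPl : ∀ w, w - P w ∈ lin G := by
    intro w
    have h1 : w ∈ lin G ⊔ C := by rw [hC.sup_eq_top]; trivial
    obtain ⟨a, ha, c, hc, rfl⟩ := Submodule.mem_sup.1 h1
    have h2 : P c = c := by
      change ((Submodule.projectionOnto C (lin G) hC.symm c : C) : W) = c
      rw [show c = ((⟨c, hc⟩ : C) : W) from rfl, Submodule.projectionOnto_apply_left]
    rw [map_add, hP0 a ha, h2, zero_add, add_sub_cancel_right]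
    exact ha
  have hPG : ∀ w ∈ G, P w ∈ G := by
    intro w hw
    have := G.sub_mem hw (mem_of_lin (hPl w))
    rwa [sub_sub_cancel] at this
  obtain ⟨ε, hε, hsep⟩ : ∃ ε > 0, ∀ a ∈ G, a ∈ C → ‖a‖ < ε → a = 0 := by
    by_contra hcon
    push Not at hcon
    obtain ⟨u, huC, hu0, hul⟩ := exists_line hG C fun ε hε => by
      obtain ⟨a, h1, h2, h3, h4⟩ := hcon ε hε
      exact ⟨a, h1, h2, h4, h3⟩
    exact hu0 ((Submodule.disjoint_def.1 hC.disjoint) u hul huC)
  set S : Set W := {f | (∃ l ∈ Λ, P l = f) ∧ ‖f‖ ≤ ‖P‖ * R} with hS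
  have hSf : S.Finite := by
    refine finite_of_sep hε (fun a ha => ha.2) ?_
    rintro _ ⟨⟨l, hl, rfl⟩, -⟩ _ ⟨⟨l', hl', rfl⟩, -⟩ hab
    rw [← sub_eq_zero]
    exact hsep _ (G.sub_mem (hPG _ (hΛ hl)) (hPG _ (hΛ hl'))) (C.sub_mem (hPC _) (hPC _)) hab
  have h2 : ∀ f ∈ S, ∃ l ∈ Λ, P l = f := fun f hf => hf.1
  choose! lf hlf hPlf using h2
  obtain ⟨M, hM⟩ : ∃ M : ℝ, ∀ f ∈ S, ‖lf f‖ ≤ M := by
    obtain ⟨M, hM⟩ := (hSf.image fun f => ‖lf f‖).bddAbove
    exact ⟨M, fun f hf => hM ⟨f, hf, rfl⟩⟩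
  have h3 : ∀ u ∈ lin G, ∃ h ∈ H, ‖u - h‖ ≤ R + M := by
    intro u hu
    obtain ⟨l, hl, hul⟩ := hR u
    have hf : P l ∈ S := by
      refine ⟨⟨l, hl, rfl⟩, ?_⟩
      have h4 : P l = - P (u - l) := by rw [map_sub, hP0 u hu]; simp
      rw [h4, norm_neg]
      exact (P.le_opNorm _).trans (mul_le_mul_of_nonneg_left hul (norm_nonneg _))
    refine ⟨l - lf (P l), Submodule.subset_span ⟨Λ.sub_mem hl (hlf _ hf), ?_⟩, ?_⟩
    · have h5 := hPl (l - lf (P l))
      rwa [map_sub, hPlf _ hf, sub_self, sub_zero] at h5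
    · have h6 : u - (l - lf (P l)) = (u - l) + lf (P l) := by abel
      rw [h6]
      exact (norm_add_le _ _).trans (add_le_add hul (hM _ hf))
  intro u hu
  have hHc : IsClosed (H : Set W) := H.closed_of_finiteDimensional
  have h7 : ∀ k : ℕ, ∃ h ∈ H, ‖u - h‖ ≤ (R + M) * (1 / ((k : ℝ) + 1)) := by
    intro k
    have hk : (0 : ℝ) < (k : ℝ) + 1 := by positivity
    obtain ⟨h, hh, hb⟩ := h3 (((k : ℝ) + 1) • u) ((lin G).smul_mem _ hu)
    refine ⟨((k : ℝ) + 1)⁻¹ • h, H.smul_mem _ hh, ?_⟩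
    have h8 : u - ((k : ℝ) + 1)⁻¹ • h = ((k : ℝ) + 1)⁻¹ • (((k : ℝ) + 1) • u - h) := by
      rw [smul_sub, smul_smul, inv_mul_cancel₀ hk.ne', one_smul]
    rw [h8, norm_smul, norm_inv, Real.norm_eq_abs, abs_of_pos hk, one_div, mul_comm]
    exact mul_le_mul_of_nonneg_right hb (inv_nonneg.2 hk.le)
  choose hk hkH hkb using h7
  refine hHc.mem_of_tendsto (f := hk) (b := atTop) ?_ (Eventually.of_forall hkH)
  rw [tendsto_iff_norm_sub_tendsto_zero]
  refine squeeze_zero (g := fun k : ℕ => (R + M) * (1 / ((k : ℝ) + 1)))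
    (fun k => norm_nonneg _) (fun k => by rw [norm_sub_rev]; exact hkb k) ?_
  have := tendsto_one_div_add_atTop_nhds_zero_nat.const_mul (R + M)
  rwa [mul_zero] at this

/-- **Kronecker type lemma.** `Z` closed and `Λ`-periodic, `p + L ⊆ Z` for a subspace `L`.
Then `p + H ⊆ Z` for a subspace `H ⊇ L` spanned by finitely many elements of `Λ`. -/
theorem exists_rat {Λ : AddSubgroup W} {R : ℝ} (hR : ∀ w : W, ∃ l ∈ Λ, ‖w - l‖ ≤ R)
    {Z : Set W} (hZ : IsClosed Z) (hper : ∀ z ∈ Z, ∀ l ∈ Λ, z + l ∈ Z) {p : W}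
    (L : Submodule ℝ W) (hL : ∀ v ∈ L, p + v ∈ Z) :
    ∃ S : Finset Λ, L ≤ Submodule.span ℝ (Subtype.val '' (S : Set Λ)) ∧
      ∀ h ∈ Submodule.span ℝ (Subtype.val '' (S : Set Λ)), p + h ∈ Z := by
  classical
  set G : AddSubgroup W := (L.toAddSubgroup ⊔ Λ).topologicalClosure with hG
  have hGc : IsClosed (G : Set W) := AddSubgroup.isClosed_topologicalClosure _
  have hΛ : Λ ≤ G := le_sup_right.trans (AddSubgroup.le_topologicalClosure _)
  have hLG : L ≤ lin G := fun v hv s =>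
    (le_sup_left.trans (AddSubgroup.le_topologicalClosure (L.toAddSubgroup ⊔ Λ))) (L.smul_mem s hv)
  have hGZ : ∀ g ∈ G, p + g ∈ Z := by
    have h1 : ((L.toAddSubgroup ⊔ Λ : AddSubgroup W) : Set W) ⊆ (fun g => p + g) ⁻¹' Z := by
      intro g hg
      obtain ⟨a, ha, b, hb, rfl⟩ := AddSubgroup.mem_sup.1 hg
      change p + (a + b) ∈ Z
      rw [← add_assoc]
      exact hper _ (hL a ha) b hb
    exact fun g hg => closure_minimal h1 (hZ.preimage (by fun_prop)) hg
  have h2 := lin_eq_span hGc hΛ hR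
  have h3 : (Submodule.span ℝ ((Λ : Set W) ∩ lin G)).FG := IsNoetherian.noetherian _
  obtain ⟨T, hT, hTs⟩ := (Submodule.fg_span_iff_fg_span_finset_subset _).1 h3
  have h4 : Subtype.val '' ((T.subtype (· ∈ Λ) : Finset Λ) : Set Λ) = (T : Set W) := by
    ext w
    constructor
    · rintro ⟨l, hl, rfl⟩
      exact Finset.mem_subtype.1 hl
    · intro hw
      exact ⟨⟨w, (hT hw).1⟩, Finset.mem_subtype.2 hw, rfl⟩
  refine ⟨T.subtype (· ∈ Λ), ?_, ?_⟩
  · rw [h4, ← hTs, ← h2]; exact hLG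
  · rw [h4, ← hTs, ← h2]
    exact fun h hh => hGZ h (mem_of_lin hh)

end Crest.Agent.X261.Uen.Sub
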