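import Crest.Agent.X261.Uen.Dev
import Crest.Agent.X261.Uen.Sub
import Crest.Agent.R281.ThnN_280

/-!
X261 / Uen / Core (helper80): for a closed periodic set `Z` which is generically a finite union
of graphs, the kernel of the second fundamental form of a graph in `Z` consists of directions
tangent to the graph at every point.
-/

set_option autoImplicit false
set_option linter.unusedSectionVars false

open Set Filter Topology Metric Module

noncomputable section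

namespace Crest.Agent.X261.Uen.Core

open Crest.Agent.R281.Thn_280 Crest.Agent.X261.Uen.Thin Crest.Agent.X261.Uen.Dev

variable {X W : Type} [NormedAddCommGroup X] [NormedSpace ℂ X] [FiniteDimensional ℂ X]
  [NormedAddCommGroup W] [NormedSpace ℂ W] [FiniteDimensional ℂ W]

/-- preimage of a thin set under a map which is submersive somewhere -/
theorem sth_pre {Y : Type} [NormedAddCommGroup Y] [NormedSpace ℂ Y] [FiniteDimensional ℂ Y]
    {E : Set X} (hE : STh E) {N : Set Y} (hN : IsOpen N) (hNc : IsPreconnected N) {β : Y → X}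
    (hβ : AnalyticOnNhd ℂ β N) {y₀ : Y} (hy₀ : y₀ ∈ N)
    (hs : Function.Surjective (fderiv ℂ β y₀)) : STh {y | y ∈ N ∧ β y ∈ E} := by
  have : ProperSpace Y := FiniteDimensional.proper ℂ Y
  obtain ⟨m, hm, hm0, hms⟩ := Crest.Agent.R281.ThnM_280.exists_minor hβ hy₀ hs
  have h1 : STh {y | y ∈ N ∧ m y = 0} := by
    refine sth_zero hN hm fun z hz hcon => hm0 ?_
    exact hm.eqOn_zero_of_preconnected_of_eventuallyEq_zero hNc hz
      (hcon.mono fun w hw => not_not.1 hw) hy₀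
  have ho : IsOpen (N ∩ m ⁻¹' {0}ᶜ) :=
    hm.continuousOn.isOpen_inter_preimage hN isOpen_compl_singleton
  have h2 := hE.preimage ho (fun y hy => hβ y hy.1) fun y hy => hms y hy.1 hy.2
  refine (h1.union h2).mono ?_
  rintro y ⟨hy, hyE⟩
  by_cases h : m y = 0
  · exact Or.inl ⟨hy, h⟩
  · exact Or.inr ⟨⟨hy, h⟩, hyE⟩

variable {B : W →L[ℂ] X} {Z : Set W} {E : Set X} {g : X → W} {O : Set X}

theorem B_fderiv (hO : IsOpen O) (hg : AnalyticOnNhd ℂ g O) (hB : ∀ u ∈ O, B (g u) = u) {u : X}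
    (hu : u ∈ O) (a : X) : B (fderiv ℂ g u a) = a := by
  have h1 := B.hasFDerivAt.comp u (hg u hu).differentiableAt.hasFDerivAt
  have h2 : HasFDerivAt (B ∘ g) (ContinuousLinearMap.id ℂ X) u := by
    refine (hasFDerivAt_id u).congr_of_eventuallyEq ?_
    filter_upwards [hO.mem_nhds hu] with x hx using hB x hx
  exact congrArg (fun L : X →L[ℂ] X => L a) (h1.unique h2)

/-- small pieces of lines in `Z` extend to whole lines -/
theorem lines_mem (hZ : IsClosed Z) (hE : STh E) (hloc : ∀ p ∈ Z, B p ∉ E → LocG B Z p)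
    {U : Set X} (hU : IsOpen U) (hUc : Convex ℝ U) (hg : AnalyticOnNhd ℂ g U)
    (hB : ∀ u ∈ U, B (g u) = u) {w : X → W} (hw : AnalyticOnNhd ℂ w U)
    (h0 : ∀ u ∈ U, ∀ᶠ y in 𝓝 ((u, 0) : X × ℂ), g y.1 + y.2 • w y.1 ∈ Z) :
    ∀ u ∈ U, ∀ t : ℂ, g u + t • w u ∈ Z := by
  intro u₀ hu₀ t₀
  set ψ : X × ℂ → W := fun y => g y.1 + y.2 • w y.1 with hψ
  have hψa : ∀ y : X × ℂ, y.1 ∈ U → AnalyticAt ℂ ψ y := fun y hy =>
    (AnalyticAt.comp (f := Prod.fst) (hg _ hy) analyticAt_fst).add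
      (analyticAt_snd.smul (AnalyticAt.comp (f := Prod.fst) (hw _ hy) analyticAt_fst))
  have hN : IsOpen (U ×ˢ (univ : Set ℂ)) := hU.prod isOpen_univ
  have hβ : AnalyticOnNhd ℂ (fun y => B (ψ y)) (U ×ˢ (univ : Set ℂ)) := fun y hy =>
    (B.analyticAt _).comp (hψa y hy.1)
  have hs : Function.Surjective (fderiv ℂ (fun y => B (ψ y)) (u₀, 0)) := by
    intro a
    have h1 := (hβ (u₀, 0) ⟨hu₀, trivial⟩).differentiableAt.hasFDerivAt
    have h2 : HasFDerivAt (fun x : X => (x, (0 : ℂ))) (ContinuousLinearMap.inl ℂ X ℂ) u₀ :=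
      hasFDerivAt_prodMk_left u₀ 0
    have h3 := HasFDerivAt.comp (f := fun x : X => (x, (0 : ℂ))) u₀ h1 h2
    have h4 : HasFDerivAt ((fun y => B (ψ y)) ∘ fun x : X => (x, (0 : ℂ)))
        (ContinuousLinearMap.id ℂ X) u₀ := by
      refine (hasFDerivAt_id u₀).congr_of_eventuallyEq ?_
      filter_upwards [hU.mem_nhds hu₀] with x hx
      simp [hψ, hB x hx]
    exact ⟨(a, 0), congrArg (fun L : X →L[ℂ] X => L a) (h3.unique h4)⟩
  have hth := sth_pre hE hN (hUc.prod convex_univ).isPreconnected hβ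
    (y₀ := (u₀, 0)) ⟨hu₀, trivial⟩ hs
  have hd := dense_vert hth
  have h5 : ∀ x ∈ U, {t : ℂ | (x, t) ∈ {y | y ∈ U ×ˢ (univ : Set ℂ) ∧ B (ψ y) ∈ E}}.Countable →
      ψ (x, t₀) ∈ Z := by
    intro x hx hc
    refine line_ext (B := B) (ψ := ψ) (γ := fun t => (x, t)) hZ (by fun_prop)
      (fun t => hψa _ hx) (hc.mono ?_) (h0 x hx) t₀
    rintro t ⟨ht1, ht2⟩
    refine ⟨⟨hx, trivial⟩, ?_⟩
    by_contra hcon
    exact ht2 (hloc _ ht1 hcon)
  have hc : ContinuousAt (fun x : X => ψ (x, t₀)) u₀ :=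
    ContinuousAt.comp (f := fun x : X => (x, t₀)) (hψa (u₀, t₀) hu₀).continuousAt (by fun_prop)
  refine hZ.mem_of_frequently_of_tendsto ?_ hc
  have h6 := mem_closure_iff_frequently.1 (hd u₀)
  exact (h6.and_eventually (hU.mem_nhds hu₀)).mono fun x hx => h5 x hx.2 hx.1

/-- a direction `h` with `g U + ℝ h ⊆ Z` is tangent to the graph everywhere -/
theorem tangent_of_mem (hE : STh E) (hloc : ∀ p ∈ Z, B p ∉ E → LocG B Z p) (hO : IsOpen O)
    (hOc : IsPreconnected O) (hg : AnalyticOnNhd ℂ g O) (hB : ∀ u ∈ O, B (g u) = u)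
    {U : Set X} (hU : IsOpen U) (hne : U.Nonempty) (hUO : U ⊆ O) {h : W}
    (hh : ∀ u ∈ U, ∀ s : ℝ, g u + s • h ∈ Z) : ∀ u ∈ O, fderiv ℂ g u (B h) = h := by
  have : CompleteSpace W := FiniteDimensional.complete ℂ W
  have : ProperSpace X := FiniteDimensional.proper ℂ X
  borelize X
  obtain ⟨x₁, hx₁U, hx₁E⟩ := hE.dense_compl.inter_open_nonempty U hU hne
  have hp : g x₁ ∈ Z := by simpa using hh x₁ hx₁U 0
  obtain ⟨S, hS, ρ, hρ, hgS, hw⟩ := hloc _ hp (by rw [hB _ (hUO hx₁U)]; exact hx₁E)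
  set χ : X × ℝ → W := fun y => g y.1 + y.2 • h with hχ
  have hχc : ∀ y : X × ℝ, y.1 ∈ U → ContinuousAt χ y := fun y hy =>
    (ContinuousAt.comp (f := Prod.fst) (hg _ (hUO hy)).continuousAt continuousAt_fst).add
      (continuousAt_snd.smul continuousAt_const)
  have hχ0 : χ (x₁, 0) = g x₁ := by simp [hχ]
  have e1 : ∀ᶠ y in 𝓝 ((x₁, 0) : X × ℝ), y.1 ∈ U := continuousAt_fst.eventually (hU.mem_nhds hx₁U)
  have e2 : ∀ᶠ y in 𝓝 ((x₁, 0) : X × ℝ), χ y ∈ Z → ∃ g' ∈ S, χ y = g' (B (χ y)) :=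
    (hχc (x₁, 0) hx₁U).eventually (by rw [hχ0]; exact hw)
  have e3 : ∀ᶠ y in 𝓝 ((x₁, 0) : X × ℝ), B (χ y) ∈ ball (B (g x₁)) ρ :=
    (B.continuous.continuousAt.comp (hχc (x₁, 0) hx₁U)).preimage_mem_nhds
      (by change _ ∈ 𝓝 (B (χ (x₁, 0))); rw [hχ0]; exact ball_mem_nhds _ hρ)
  obtain ⟨Q, hQ1, hQo, hQy⟩ := _root_.eventually_nhds_iff.1 ((e1.and e2).and e3)
  obtain ⟨g', hg'S, Q', h1, h2, ⟨y₂, hy₂⟩, h4⟩ := exists_open_zero hS
    (fun g' y => χ y - g' (B (χ y))) hQo ⟨_, hQy⟩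
    (fun g' hg' y hy => ((hχc y (hQ1 y hy).1.1).sub (ContinuousAt.comp (g := g')
      (f := fun y => B (χ y)) ((hgS g' hg').1 _ (hQ1 y hy).2).continuousAt
      (B.continuous.continuousAt.comp (hχc y (hQ1 y hy).1.1)))).continuousWithinAt) (by
      intro y hy
      obtain ⟨g', hg', hgy⟩ := (hQ1 y hy).1.2 (hh _ (hQ1 y hy).1.1 _)
      exact ⟨g', hg', sub_eq_zero.2 hgy⟩)
  have hBχ : ∀ y : X × ℝ, y.1 ∈ U → B (χ y) = y.1 + (y.2 : ℂ) • B h := by
    intro y hy
    simp only [hχ, map_add, hB _ (hUO hy)]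
    rw [← Complex.coe_smul, map_smul]
  have h5 : ∀ y ∈ Q', g y.1 + (y.2 : ℂ) • h = g' (y.1 + (y.2 : ℂ) • B h) := by
    intro y hy
    rw [← hBχ y (hQ1 y (h1 hy)).1.1, ← sub_eq_zero.1 (h4 y hy), Complex.coe_smul]
  have h6 : ∀ y ∈ Q', fderiv ℂ g y.1 (B h) = h := by
    rintro ⟨x, s⟩ hy
    have hxU : x ∈ U := (hQ1 _ (h1 hy)).1.1
    have ha : AnalyticAt ℂ g' (x + (s : ℂ) • B h) := by
      have := (hgS g' hg'S).1 _ (hQ1 _ (h1 hy)).2
      rwa [hBχ _ hxU] at this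
    have d1 : HasFDerivAt (fun x => g' (x + (s : ℂ) • B h)) (fderiv ℂ g' (x + (s : ℂ) • B h)) x := by
      have := ha.differentiableAt.hasFDerivAt.comp x ((hasFDerivAt_id x).add_const ((s : ℂ) • B h))
      rw [ContinuousLinearMap.comp_id] at this
      exact this
    have d2 : HasFDerivAt (fun x => g' (x + (s : ℂ) • B h)) (fderiv ℂ g x) x := by
      refine ((hg x (hUO hxU)).differentiableAt.hasFDerivAt.add_const
        ((s : ℂ) • h)).congr_of_eventuallyEq ?_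
      have : ∀ᶠ x' in 𝓝 x, (x', s) ∈ Q' :=
        (by fun_prop : Continuous fun x' : X => (x', s)).continuousAt.eventually (h2.mem_nhds hy)
      filter_upwards [this] with x' hx' using (h5 _ hx').symm
    have d3 := der_line s ha
    have d4 : HasDerivAt (fun s : ℝ => g' (x + (s : ℂ) • B h)) h s := by
      have d5 : HasDerivAt (fun s : ℝ => g x + (s : ℂ) • h) h s := by
        have := ((Complex.ofRealCLM.hasDerivAt (x := s)).smul_const h).const_add (g x)
        simpa using this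
      refine d5.congr_of_eventuallyEq ?_
      have : ∀ᶠ s' in 𝓝 s, (x, s') ∈ Q' :=
        (by fun_prop : Continuous fun s' : ℝ => (x, s')).continuousAt.eventually (h2.mem_nhds hy)
      filter_upwards [this] with s' hs' using (h5 _ hs').symm
    change fderiv ℂ g x (B h) = h
    rw [d2.unique d1]
    exact d3.unique d4
  have h7 : AnalyticOnNhd ℂ (fun u => fderiv ℂ g u (B h) - h) O := fun u hu =>
    (an_apply (an_fd (hg u hu)) analyticAt_const).sub analyticAt_const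
  have h8 := h7.eqOn_zero_of_preconnected_of_eventuallyEq_zero hOc
    (hUO (hQ1 _ (h1 hy₂)).1.1) (by
      have : ∀ᶠ x' in 𝓝 y₂.1, (x', y₂.2) ∈ Q' :=
        (by fun_prop : Continuous fun x' : X => (x', y₂.2)).continuousAt.eventually
          (h2.mem_nhds hy₂)
      filter_upwards [this] with x' hx' using sub_eq_zero.2 (h6 _ hx'))
  exact fun u hu => sub_eq_zero.1 (h8 hu)

/-- **core of Ueno's theorem** -/
theorem core (hZ : IsClosed Z) {Λ : AddSubgroup W} [Countable Λ] {R : ℝ}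
    (hR : ∀ w : W, ∃ l ∈ Λ, ‖w - l‖ ≤ R) (hper : ∀ z ∈ Z, ∀ l ∈ Λ, z + l ∈ Z) (hE : STh E)
    (hloc : ∀ p ∈ Z, B p ∉ E → LocG B Z p) (hO : IsOpen O) (hOc : IsPreconnected O)
    (hg : AnalyticOnNhd ℂ g O) (hgZ : ∀ u ∈ O, g u ∈ Z) (hB : ∀ u ∈ O, B (g u) = u) {u₁ : X}
    (hu₁ : u₁ ∈ O) (hmax : ∀ u ∈ O, rk (Hs g u) ≤ rk (Hs g u₁)) {v₁ : X}
    (hv₁ : Hs g u₁ v₁ = 0) : ∀ u ∈ O, fderiv ℂ g u v₁ = fderiv ℂ g u₁ v₁ := by
  classical
  have : CompleteSpace X := FiniteDimensional.complete ℂ X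
  have : CompleteSpace W := FiniteDimensional.complete ℂ W
  obtain ⟨v, hv, hev⟩ := exists_field hO hg hu₁ hmax hv₁
  have hst := straight (hg u₁ hu₁) hev
  have hc1 : ContinuousAt (fun y : X × ℂ => y.1 + y.2 • v y.1) (u₁, 0) := by
    have : ContinuousAt (fun y : X × ℂ => v y.1) (u₁, 0) :=
      ContinuousAt.comp (f := Prod.fst) hev.self_of_nhds.1.continuousAt continuousAt_fst
    exact continuousAt_fst.add (continuousAt_snd.smul this)
  have hc2 : ∀ᶠ y in 𝓝 ((u₁, 0) : X × ℂ), y.1 + y.2 • v y.1 ∈ O :=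
    hc1.preimage_mem_nhds (by simpa using hO.mem_nhds hu₁)
  set w : X → W := fun u => fderiv ℂ g u (v u) with hw
  have e1 : ∀ᶠ y in 𝓝 ((u₁, 0) : X × ℂ), g y.1 + y.2 • w y.1 ∈ Z := by
    filter_upwards [hst, hc2] with y a1 a2
    rw [← a1]; exact hgZ _ a2
  have e2 : ∀ᶠ u in 𝓝 u₁, ∀ᶠ y in 𝓝 ((u, 0) : X × ℂ), g y.1 + y.2 • w y.1 ∈ Z :=
    (by fun_prop : Continuous fun u : X => (u, (0 : ℂ))).continuousAt.eventually e1.eventually_nhds
  obtain ⟨δ, hδ, hb⟩ := Metric.mem_nhds_iff.1 ((e2.and hev).and (hO.mem_nhds hu₁))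
  have hwa : AnalyticOnNhd ℂ w (ball u₁ δ) := fun u hu =>
    an_apply (an_fd (hg u (hb hu).2)) (hb hu).1.2.1
  have hl := lines_mem hZ hE hloc isOpen_ball (convex_ball u₁ δ) (fun u hu => hg u (hb hu).2)
    (fun u hu => hB u (hb hu).2) hwa fun u hu => (hb hu).1.1
  set H : Finset Λ → Submodule ℝ W := fun S => Submodule.span ℝ (Subtype.val '' (S : Set Λ))
    with hH
  set A : Finset Λ → Set X := fun S =>
    (closedBall u₁ (δ / 2) ∩ {u | w u ∈ H S ∧ ∀ h ∈ H S, g u + h ∈ Z}) ∪ (ball u₁ (δ / 2))ᶜ with hA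
  have hsub : closedBall u₁ (δ / 2) ⊆ ball u₁ δ := closedBall_subset_ball (by linarith)
  have hAc : ∀ S, IsClosed (A S) := by
    intro S
    refine IsClosed.union ?_ isOpen_ball.isClosed_compl
    have hc : ContinuousOn (fun u => (w u, g u)) (closedBall u₁ (δ / 2)) :=
      (hwa.continuousOn.mono hsub).prodMk
        (hg.continuousOn.mono fun u hu => (hb (hsub hu)).2)
    have hcl : IsClosed {q : W × W | q.1 ∈ H S ∧ ∀ h ∈ H S, q.2 + h ∈ Z} := by
      refine IsClosed.inter ((H S).closed_of_finiteDimensional.preimage continuous_fst) ?_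
      have : {q : W × W | ∀ h ∈ H S, q.2 + h ∈ Z} = ⋂ h ∈ H S, {q : W × W | q.2 + h ∈ Z} := by
        ext q; simp
      change IsClosed {q : W × W | ∀ h ∈ H S, q.2 + h ∈ Z}
      rw [this]
      exact isClosed_biInter fun h _ => hZ.preimage (by fun_prop)
    exact hc.preimage_isClosed_of_isClosed isClosed_closedBall hcl
  have hAu : ⋃ S, A S = univ := by
    refine eq_univ_of_forall fun u => ?_
    by_cases hu : u ∈ ball u₁ (δ / 2)
    · obtain ⟨S, h1, h2⟩ := Sub.exists_rat hR hZ hper (p := g u)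
        ((Submodule.span ℂ {w u}).restrictScalars ℝ) (by
          intro x hx
          obtain ⟨t, rfl⟩ := Submodule.mem_span_singleton.1 hx
          exact hl u (hsub (ball_subset_closedBall hu)) t)
      exact mem_iUnion.2 ⟨S, Or.inl ⟨ball_subset_closedBall hu,
        h1 (Submodule.mem_span_singleton_self (R := ℂ) (w u)), h2⟩⟩
    · exact mem_iUnion.2 ⟨∅, Or.inr hu⟩
  obtain ⟨u₂, hu₂, hu₂'⟩ := (dense_iUnion_interior_of_closed hAc hAu).inter_open_nonempty
    (ball u₁ (δ / 2)) isOpen_ball ⟨u₁, mem_ball_self (by linarith)⟩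
  obtain ⟨S, hS⟩ := mem_iUnion.1 hu₂'
  set U := ball u₁ (δ / 2) ∩ interior (A S) with hU
  have hUo : IsOpen U := isOpen_ball.inter isOpen_interior
  have hUA : ∀ u ∈ U, w u ∈ H S ∧ ∀ h ∈ H S, g u + h ∈ Z := by
    intro u hu
    rcases interior_subset hu.2 with h | h
    · exact h.2
    · exact (h hu.1).elim
  have hUb : U ⊆ ball u₁ δ := fun u hu => hsub (ball_subset_closedBall hu.1)
  have ht : ∀ h ∈ H S, ∀ u ∈ O, fderiv ℂ g u (B h) = h := fun h hh =>
    tangent_of_mem hE hloc hO hOc hg hB hUo ⟨u₂, hu₂, hS⟩ (fun u hu => (hb (hUb hu)).2)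
      fun u hu s => (hUA u hu).2 _ ((H S).smul_mem s hh)
  intro u hu
  have h7 : AnalyticOnNhd ℂ (fun x => fderiv ℂ g u (B (w x)) - w x) (ball u₁ δ) := fun x hx =>
    (((fderiv ℂ g u).analyticAt _).comp ((B.analyticAt _).comp (hwa x hx))).sub (hwa x hx)
  have h8 := h7.eqOn_zero_of_preconnected_of_eventuallyEq_zero (convex_ball u₁ δ).isPreconnected
    (hUb ⟨hu₂, hS⟩) (by
      filter_upwards [hUo.mem_nhds ⟨hu₂, hS⟩] with x hx
      exact sub_eq_zero.2 (ht _ (hUA x hx).1 u hu)) (mem_ball_self hδ)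
  have h9 := sub_eq_zero.1 h8
  simp only [hw, hv] at h9
  rwa [B_fderiv hO hg hB hu₁] at h9

end Crest.Agent.X261.Uen.Core
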