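import Crest.Agent.X261.Uen.Thin

/-!
X261 / Uen / Dev (helper80): a graph with degenerate second fundamental form is ruled by lines.
-/

set_option autoImplicit false
set_option linter.unusedSectionVars false

open Set Filter Topology Metric Module

noncomputable section

namespace Crest.Agent.X261.Uen.Dev

open Crest.Agent.R281.Thn_280 Crest.Agent.X261.Uen.Thin

variable {X W : Type*} [NormedAddCommGroup X] [NormedSpace ℂ X] [FiniteDimensional ℂ X]
  [NormedAddCommGroup W] [NormedSpace ℂ W] [FiniteDimensional ℂ W]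

theorem an_apply {Y E F : Type*} [NormedAddCommGroup Y] [NormedSpace ℂ Y] [NormedAddCommGroup E]
    [NormedSpace ℂ E] [NormedAddCommGroup F] [NormedSpace ℂ F] {c : Y → E →L[ℂ] F} {u : Y → E}
    {y : Y} (hc : AnalyticAt ℂ c y) (hu : AnalyticAt ℂ u y) :
    AnalyticAt ℂ (fun y => c y (u y)) y :=
  AnalyticAt.comp₂ (h := fun p : (E →L[ℂ] F) × E => p.1 p.2)
    ((ContinuousLinearMap.id ℂ (E →L[ℂ] F)).analyticAt_bilinear (c y, u y)) hc hu

theorem an_comp {Y E F G : Type*} [NormedAddCommGroup Y] [NormedSpace ℂ Y] [NormedAddCommGroup E]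
    [NormedSpace ℂ E] [NormedAddCommGroup F] [NormedSpace ℂ F] [NormedAddCommGroup G]
    [NormedSpace ℂ G] {c : Y → F →L[ℂ] G} {u : Y → E →L[ℂ] F}
    {y : Y} (hc : AnalyticAt ℂ c y) (hu : AnalyticAt ℂ u y) :
    AnalyticAt ℂ (fun y => (c y).comp (u y)) y :=
  AnalyticAt.comp₂ (h := fun p : (F →L[ℂ] G) × (E →L[ℂ] F) => p.1.comp p.2)
    ((ContinuousLinearMap.compL ℂ E F G).analyticAt_bilinear (c y, u y)) hc hu

theorem der_line {Y E : Type*} [NormedAddCommGroup Y] [NormedSpace ℂ Y] [NormedAddCommGroup E]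
    [NormedSpace ℂ E] {f : Y → E} {u k : Y} (s : ℝ) (hf : AnalyticAt ℂ f (u + (s : ℂ) • k)) :
    HasDerivAt (fun s : ℝ => f (u + (s : ℂ) • k)) (fderiv ℂ f (u + (s : ℂ) • k) k) s := by
  have hline : HasDerivAt (fun s : ℝ => u + (s : ℂ) • k) k s := by
    have := ((Complex.ofRealCLM.hasDerivAt (x := s)).smul_const k).const_add u
    simpa using this
  have h := (hf.differentiableAt.hasFDerivAt.restrictScalars ℝ).comp_hasDerivAt s hline
  exact h

/-- the second derivative -/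
def Hs (g : X → W) (u : X) : X →L[ℂ] X →L[ℂ] W := fderiv ℂ (fderiv ℂ g) u

theorem hs_symm {g : X → W} {u : X} (hg : AnalyticAt ℂ g u) (a b : X) :
    Hs g u a b = Hs g u b a :=
  hg.contDiffAt.isSymmSndFDerivAt_of_omega a b

theorem an_fd {g : X → W} {u : X} (hg : AnalyticAt ℂ g u) : AnalyticAt ℂ (fderiv ℂ g) u := by
  have : CompleteSpace W := FiniteDimensional.complete ℂ W
  exact hg.fderiv

theorem an_hs {g : X → W} {u : X} (hg : AnalyticAt ℂ g u) : AnalyticAt ℂ (Hs g) u :=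
  an_fd (an_fd hg)

/-- a field in the kernel of the second derivative: its derivative along itself is again in the
kernel -/
theorem hs_dv {g : X → W} {v : X → X} {u : X} (hg : AnalyticAt ℂ g u) (hv : AnalyticAt ℂ v u)
    (h0 : ∀ᶠ x in 𝓝 u, Hs g x (v x) = 0) : Hs g u (fderiv ℂ v u (v u)) = 0 := by
  have : CompleteSpace W := FiniteDimensional.complete ℂ W
  set T := fderiv ℂ (Hs g) u with hT
  have hH : HasFDerivAt (Hs g) T u := (an_hs hg).differentiableAt.hasFDerivAt
  have hV : HasFDerivAt v (fderiv ℂ v u) u := hv.differentiableAt.hasFDerivAt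
  have h1 : ∀ a y, Hs g u (fderiv ℂ v u a) y + T a (v u) y = 0 := by
    intro a y
    have h2 := hH.clm_apply hV
    have h3 : HasFDerivAt (fun x => Hs g x (v x)) (0 : X →L[ℂ] X →L[ℂ] W) u :=
      (hasFDerivAt_const (0 : X →L[ℂ] W) u).congr_of_eventuallyEq h0
    have h4 := congrArg (fun L : X →L[ℂ] X →L[ℂ] W => L a y) (h2.unique h3)
    simpa using h4
  have s12 : ∀ a b, T a b = T b a := fun a b =>
    (an_fd hg).contDiffAt.isSymmSndFDerivAt_of_omega a b
  have s23 : ∀ a b c, T a b c = T a c b := by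
    intro a b c
    have h2 : ∀ b c : X, HasFDerivAt (fun x => Hs g x b c)
        (((T.flip b).flip c)) u := by
      intro b c
      have h5 := (hH.clm_apply (hasFDerivAt_const b u)).clm_apply (hasFDerivAt_const c u)
      simpa using h5
    have h3 : HasFDerivAt (fun x => Hs g x b c) ((T.flip c).flip b) u := by
      refine (h2 c b).congr_of_eventuallyEq ?_
      filter_upwards [hg.eventually_analyticAt] with x hx using hs_symm hx b c
    have h4 := congrArg (fun L : X →L[ℂ] W => L a) ((h2 b c).unique h3)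
    simpa using h4
  ext y
  have h5 : T y (v u) (v u) = 0 := by
    have h6 := h1 y (v u)
    rw [hs_symm hg, h0.self_of_nhds] at h6
    simpa using h6
  have h7 := h1 (v u) y
  rw [s23, s12, h5, add_zero] at h7
  exact h7

/-- an analytic kernel field through a kernel vector at a point of maximal rank, normalised so
that it is constant along itself -/
theorem exists_field {g : X → W} {O : Set X} (hO : IsOpen O) (hg : AnalyticOnNhd ℂ g O) {u₁ : X}
    (hu₁ : u₁ ∈ O) (hmax : ∀ u ∈ O, rk (Hs g u) ≤ rk (Hs g u₁)) {v₁ : X} (hv₁ : Hs g u₁ v₁ = 0) :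
    ∃ v : X → X, v u₁ = v₁ ∧ ∀ᶠ u in 𝓝 u₁, AnalyticAt ℂ v u ∧ Hs g u (v u) = 0 ∧
      fderiv ℂ v u (v u) = 0 := by
  have : CompleteSpace X := FiniteDimensional.complete ℂ X
  set r := rk (Hs g u₁) with hr
  obtain ⟨B, A, hBA⟩ := exists_AB (Hs g u₁) (r := r) rfl
  set T : X → ((Fin r → ℂ) →L[ℂ] (Fin r → ℂ)) := fun u => B.comp ((Hs g u).comp A) with hT
  have hT1 : T u₁ = 1 := by ext1 c; exact hBA c
  have hTa : ∀ u ∈ O, AnalyticAt ℂ T u := by
    intro u hu
    exact an_comp analyticAt_const (an_comp (an_hs (hg u hu)) analyticAt_const)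
  set c : X → (Fin r → ℂ) := fun u => Ring.inverse (T u) (B (Hs g u v₁)) with hc
  set v : X → X := fun u => v₁ - A (c u) with hv
  have e1 : ∀ᶠ u in 𝓝 u₁, IsUnit (T u) :=
    (hTa u₁ hu₁).continuousAt.eventually (Units.isOpen.mem_nhds (by
      change IsUnit (T u₁); rw [hT1]; exact isUnit_one))
  have e2 : ∀ᶠ u in 𝓝 u₁, AnalyticAt ℂ c u ∧ Hs g u (v u) = 0 ∧ IsUnit (T u) ∧ u ∈ O := by
    filter_upwards [e1, hO.mem_nhds hu₁] with u hu huO
    refine ⟨?_, ?_, hu, huO⟩
    · obtain ⟨z, hz⟩ := hu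
      have a1 : AnalyticAt ℂ (fun u => Ring.inverse (T u)) u :=
        AnalyticAt.comp (g := Ring.inverse) (f := T) (by rw [← hz]; exact analyticAt_inverse z)
          (hTa u huO)
      exact an_apply a1 ((B.analyticAt _).comp (an_apply (an_hs (hg u huO)) analyticAt_const))
    · have h3 : ∀ x, B (Hs g u (A (Ring.inverse (T u) x))) = x := fun x =>
        congrArg (fun L : (Fin r → ℂ) →L[ℂ] (Fin r → ℂ) => L x) (Ring.mul_inverse_cancel _ hu)
      refine inj_of_rk (B := B) (fun x => ⟨_, h3 x⟩) (by simpa using hmax u huO) ?_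
      simp only [hv, hc, map_sub, h3, sub_self]
  refine ⟨v, by simp [hv, hc, hv₁], ?_⟩
  filter_upwards [e2.eventually_nhds] with u hu
  obtain ⟨h1, h2, h3, h4⟩ := hu.self_of_nhds
  have hva : AnalyticAt ℂ v u := analyticAt_const.sub ((A.analyticAt _).comp h1)
  refine ⟨hva, h2, ?_⟩
  have h5 := hs_dv (hg u h4) hva (hu.mono fun x hx => hx.2.1)
  have h6 : fderiv ℂ v u = - A.comp (fderiv ℂ c u) :=
    ((A.hasFDerivAt.comp u h1.differentiableAt.hasFDerivAt).const_sub v₁).fderiv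
  rw [h6] at h5 ⊢
  have h7 : T u (fderiv ℂ c u (v u)) = 0 := by
    have := congrArg B h5
    simpa [hT] using this
  have h8 : fderiv ℂ c u (v u) = 0 := by
    have h9 := congrArg (fun L : (Fin r → ℂ) →L[ℂ] (Fin r → ℂ) => L (fderiv ℂ c u (v u)))
      (Ring.inverse_mul_cancel _ h3)
    change Ring.inverse (T u) (T u (fderiv ℂ c u (v u))) = fderiv ℂ c u (v u) at h9
    rw [h7, map_zero] at h9
    exact h9.symm
  simp [h8]

/-- straight lines -/
theorem straight {g : X → W} {v : X → X} {u₁ : X} (hg : AnalyticAt ℂ g u₁)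
    (h : ∀ᶠ u in 𝓝 u₁, AnalyticAt ℂ v u ∧ Hs g u (v u) = 0 ∧ fderiv ℂ v u (v u) = 0) :
    ∀ᶠ y in 𝓝 ((u₁, 0) : X × ℂ),
      g (y.1 + y.2 • v y.1) = g y.1 + y.2 • fderiv ℂ g y.1 (v y.1) := by
  have : CompleteSpace X := FiniteDimensional.complete ℂ X
  have : CompleteSpace W := FiniteDimensional.complete ℂ W
  have hv₁ := h.self_of_nhds.1
  have e1 : ∀ᶠ u in 𝓝 u₁, ‖fderiv ℂ v u‖ < ‖fderiv ℂ v u₁‖ + 1 :=
    (an_fd hv₁).continuousAt.norm.eventually_lt continuousAt_const (lt_add_one _)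
  obtain ⟨δ, hδ, hb⟩ := Metric.mem_nhds_iff.1 ((h.and e1).and hg.eventually_analyticAt)
  have hc1 : ContinuousAt (fun y : X × ℂ => y.1 + y.2 • v y.1) (u₁, 0) := by
    have : ContinuousAt (fun y : X × ℂ => v y.1) (u₁, 0) :=
      ContinuousAt.comp (f := Prod.fst) hv₁.continuousAt continuousAt_fst
    fun_prop
  have hc2 : ∀ᶠ y in 𝓝 ((u₁, 0) : X × ℂ), y.1 + y.2 • v y.1 ∈ ball u₁ δ :=
    hc1.preimage_mem_nhds (by simpa using ball_mem_nhds u₁ hδ)
  filter_upwards [hc2,
    (continuousAt_fst (p := ((u₁, 0) : X × ℂ))).eventually (ball_mem_nhds u₁ hδ)] with y e2 e3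
  obtain ⟨u, t⟩ := y
  simp only at e2 e3 ⊢
  set k : X := t • v u with hk
  have hmem : ∀ s ∈ Icc (0 : ℝ) 1, u + (s : ℂ) • k ∈ ball u₁ δ := by
    intro s hs
    have h3 : u + (s : ℂ) • k = (1 - s) • u + s • (u + k) := by
      have h4 : (s : ℂ) • k = s • k := by rw [← Complex.coe_smul]
      rw [h4, sub_smul, one_smul, smul_add]
      abel
    rw [h3]
    exact (convex_ball u₁ δ) e3 e2 (by linarith [hs.2]) hs.1 (by ring)
  have k1 : ∀ s ∈ Icc (0 : ℝ) 1, v (u + (s : ℂ) • k) - v u = 0 := by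
    refine eq_zero_of_abs_deriv_le_mul_abs_self_of_eq_zero_right
      (f' := fun s : ℝ => fderiv ℂ v (u + (s : ℂ) • k) k) (K := (‖fderiv ℂ v u₁‖ + 1) * ‖t‖)
      (fun s hs => ((der_line s (hb (hmem s hs)).1.1.1).sub_const (v u)).continuousAt.continuousWithinAt)
      (fun s hs => ((der_line s (hb (hmem s ⟨hs.1, hs.2.le⟩)).1.1.1).sub_const (v u)).hasDerivWithinAt)
      (by simp) fun s hs => ?_
    obtain ⟨⟨⟨-, -, b3⟩, b4⟩, -⟩ := hb (hmem s ⟨hs.1, hs.2.le⟩)
    have h5 : fderiv ℂ v (u + (s : ℂ) • k) k =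
        - fderiv ℂ v (u + (s : ℂ) • k) (t • (v (u + (s : ℂ) • k) - v u)) := by
      rw [smul_sub, map_sub, map_smul _ t (v (u + (s : ℂ) • k)), b3, smul_zero, zero_sub, neg_neg]
    rw [h5, norm_neg]
    refine (ContinuousLinearMap.le_opNorm _ _).trans ?_
    rw [norm_smul, mul_assoc]
    exact mul_le_mul_of_nonneg_right b4.le (by positivity)
  have k2 : ∀ s ∈ Icc (0 : ℝ) 1, fderiv ℂ g (u + (s : ℂ) • k) = fderiv ℂ g u := by
    have h6 : ∀ s ∈ Icc (0 : ℝ) 1, HasDerivAt (fun s : ℝ => fderiv ℂ g (u + (s : ℂ) • k)) 0 s := by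
      intro s hs
      have h7 := der_line s (an_fd (hb (hmem s hs)).2)
      have h8 : fderiv ℂ (fderiv ℂ g) (u + (s : ℂ) • k) k = 0 := by
        have h9 : Hs g (u + (s : ℂ) • k) (t • v (u + (s : ℂ) • k)) = 0 := by
          rw [map_smul, (hb (hmem s hs)).1.1.2.1, smul_zero]
        rw [sub_eq_zero.1 (k1 s hs)] at h9
        exact h9
      rwa [h8] at h7
    intro s hs
    have := constant_of_has_deriv_right_zero (fun s hs => (h6 s hs).continuousAt.continuousWithinAt)
      (fun s hs => (h6 s ⟨hs.1, hs.2.le⟩).hasDerivWithinAt) s hs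
    simpa using this
  have h6 : ∀ s ∈ Icc (0 : ℝ) 1,
      HasDerivAt (fun s : ℝ => g (u + (s : ℂ) • k) - (s : ℂ) • fderiv ℂ g u k) 0 s := by
    intro s hs
    have h7 := der_line s (hb (hmem s hs)).2
    rw [k2 s hs] at h7
    have h8 := h7.fun_sub ((Complex.ofRealCLM.hasDerivAt (x := s)).smul_const (fderiv ℂ g u k))
    simpa using h8
  have h9 := constant_of_has_deriv_right_zero (fun s hs => (h6 s hs).continuousAt.continuousWithinAt)
    (fun s hs => (h6 s ⟨hs.1, hs.2.le⟩).hasDerivWithinAt) 1 ⟨zero_le_one, le_refl 1⟩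
  simp only [Complex.ofReal_one, one_smul, Complex.ofReal_zero, zero_smul, add_zero,
    sub_zero] at h9
  rw [← h9, hk, map_smul, sub_add_cancel]

end Crest.Agent.X261.Uen.Dev
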