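import Crest.Agent.X261.Uen.Glob

/-!
X261 / Uen / Gen (helper80): Ueno's theorem on the Gauss map, for a holomorphic map with image
`F(K) + Λ` on a connected manifold.
-/

set_option autoImplicit false
set_option linter.unusedSectionVars false

open Set Filter Topology Metric Module

noncomputable section

namespace Crest.Agent.X261.Uen

open Crest.Agent.R281.Thn_280 Crest.Agent.X261.Uen.Thin Crest.Agent.X261.Uen.Dev
open Crest.Agent.R275.Geo Crest.Agent.R281.ThnM_280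

variable {n : ℕ} {M : Type} [TopologicalSpace M] {A : Atl n M}
  {W X : Type} [NormedAddCommGroup W] [NormedSpace ℂ W] [FiniteDimensional ℂ W]
  [NormedAddCommGroup X] [NormedSpace ℂ X] [FiniteDimensional ℂ X]

/-! ### linear algebra -/

theorem exists_onto {T : Submodule ℂ W} (h : finrank ℂ X ≤ finrank ℂ T) :
    ∃ B : W →L[ℂ] X, T.map (B : W →ₗ[ℂ] X) = ⊤ := by
  obtain ⟨j, hj⟩ := finrank_le_iff_exists_linearMap.1 h
  obtain ⟨g, hg⟩ := j.exists_leftInverse_of_injective (LinearMap.ker_eq_bot.2 hj)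
  obtain ⟨B, hB⟩ := g.exists_extend
  refine ⟨LinearMap.toContinuousLinearMap B, eq_top_iff.2 fun x _ => ⟨j x, (j x).2, ?_⟩⟩
  exact (LinearMap.congr_fun hB (j x)).trans (LinearMap.congr_fun hg x)

theorem fr_map (P : W →ₗ[ℂ] X) (T : Submodule ℂ W) :
    finrank ℂ (T.map P) + finrank ℂ (T ⊓ LinearMap.ker P : Submodule ℂ W) = finrank ℂ T := by
  have h := (P.domRestrict T).finrank_range_add_finrank_ker
  rw [LinearMap.range_domRestrict, LinearMap.ker_domRestrict] at h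
  rw [← h, ← Submodule.finrank_map_subtype_eq T (Submodule.comap T.subtype (LinearMap.ker P)),
    Submodule.map_comap_subtype]

theorem exists_proj (D : Submodule ℂ W) :
    ∃ P : W →L[ℂ] W, LinearMap.ker (P : W →ₗ[ℂ] W) = D ∧ ∀ w, P (P w) = P w := by
  obtain ⟨C, hC⟩ := D.exists_isCompl
  refine ⟨LinearMap.toContinuousLinearMap (C.subtype ∘ₗ Submodule.projectionOnto C D hC.symm),
    ?_, fun w => ?_⟩
  · ext w
    change ((Submodule.projectionOnto C D hC.symm w : C) : W) = 0 ↔ _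
    rw [Submodule.coe_eq_zero, ← LinearMap.mem_ker, Submodule.ker_projectionOnto]
  · change ((Submodule.projectionOnto C D hC.symm
      ((Submodule.projectionOnto C D hC.symm w : C) : W) : C) : W) = _
    rw [Submodule.projectionOnto_apply_left]; rfl

theorem exists_quot (D : Submodule ℂ X) {p : ℕ} (hp : p + finrank ℂ D = finrank ℂ X) :
    ∃ (Q : X →L[ℂ] (Fin p → ℂ)) (R : (Fin p → ℂ) →L[ℂ] X), (∀ c, Q (R c) = c) ∧
      ∀ a, Q a = 0 ↔ a ∈ D := by
  have h1 : finrank ℂ (X ⧸ D) = finrank ℂ (Fin p → ℂ) := by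
    have := D.finrank_quotient_add_finrank
    simp only [finrank_fintype_fun_eq_card, Fintype.card_fin]
    omega
  set e := LinearEquiv.ofFinrankEq _ _ h1 with he
  obtain ⟨R, hR⟩ := ((e : (X ⧸ D) →ₗ[ℂ] (Fin p → ℂ)) ∘ₗ D.mkQ).exists_rightInverse_of_surjective
    (LinearMap.range_eq_top.2 (e.surjective.comp D.mkQ_surjective))
  refine ⟨LinearMap.toContinuousLinearMap ((e : (X ⧸ D) →ₗ[ℂ] (Fin p → ℂ)) ∘ₗ D.mkQ),
    LinearMap.toContinuousLinearMap R, fun c => LinearMap.congr_fun hR c, fun a => ?_⟩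
  change e (D.mkQ a) = 0 ↔ _
  rw [e.map_eq_zero_iff, Submodule.mkQ_apply, Submodule.Quotient.mk_eq_zero]

theorem exists_indep {κ : Type*} (φ : κ → X →L[ℂ] ℂ) (D : Submodule ℂ X) {p : ℕ}
    (hp : p + finrank ℂ D = finrank ℂ X) (h : ∀ a, (∀ k, φ k a = 0) → a ∈ D) :
    ∃ c : Fin p → κ, LinearIndependent ℂ fun k => φ (c k) := by
  set ψ : κ → Module.Dual ℂ X := fun k => (φ k : X →ₗ[ℂ] ℂ) with hψ
  have h1 := Subspace.finrank_add_finrank_dualCoannihilator_eq (Submodule.span ℂ (range ψ))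
  have h2 : (Submodule.span ℂ (range ψ)).dualCoannihilator ≤ D := fun a ha =>
    h a fun k => (Submodule.mem_dualCoannihilator a).1 ha _ (Submodule.subset_span ⟨k, rfl⟩)
  have h3 : p ≤ finrank ℂ (Submodule.span ℂ (range ψ)) := by
    have := Submodule.finrank_mono h2
    omega
  obtain ⟨f, hf, -, hli⟩ := Submodule.exists_fun_fin_finrank_span_eq ℂ (range ψ)
  choose c hc using hf
  refine ⟨fun k => c (Fin.castLE h3 k), LinearIndependent.of_comp (ContinuousLinearMap.coeLM ℂ) ?_⟩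
  have h4 := hli.comp (Fin.castLE h3) (Fin.castLE_injective h3)
  have e : (⇑(ContinuousLinearMap.coeLM ℂ) ∘ fun k => φ (c (Fin.castLE h3 k))) =
      f ∘ Fin.castLE h3 := funext fun k => hc _
  rw [e]; exact h4

theorem indep_comp {p : ℕ} {V : Type} [NormedAddCommGroup V] [NormedSpace ℂ V]
    {φ : Fin p → X →L[ℂ] ℂ} (h : LinearIndependent ℂ φ) {T : V →L[ℂ] X}
    (hT : Function.Surjective T) : LinearIndependent ℂ fun k => (φ k).comp T := by
  rw [Fintype.linearIndependent_iff] at h ⊢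
  intro c hc
  refine h c (ContinuousLinearMap.ext fun a => ?_)
  obtain ⟨v, rfl⟩ := hT a
  have := congrArg (fun L : V →L[ℂ] ℂ => L v) hc
  simpa using this

theorem indep_proj (p : ℕ) : LinearIndependent ℂ fun a : Fin p =>
    (ContinuousLinearMap.proj a : (Fin p → ℂ) →L[ℂ] ℂ) := by
  rw [Fintype.linearIndependent_iff]
  intro c hc a
  have := congrArg (fun L : (Fin p → ℂ) →L[ℂ] ℂ => L (Pi.single a 1)) hc
  simpa [Pi.single_apply] using this

/-! ### ranks -/

variable {F : M → W} {i : A.ι} {x : M}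

theorem HolV.not_crit {m : ℕ} {y : M → Cn m} (h : HolV A y) : x ∉ Crit A univ y ↔ Tg A y x = ⊤ := by
  constructor
  · intro hc
    exact LinearMap.range_eq_top.2 (surj_of_not_crit (mem_univ x) hc (A.cover x).choose_spec)
  · rintro ht ⟨-, i, hi, hs⟩
    rw [h.tg_eq hi] at ht
    exact hs (LinearMap.range_eq_top.1 ht)

theorem HolV.on {m : ℕ} {y : M → Cn m} (h : HolV A y) (i : A.ι) :
    DifferentiableOn ℂ (fun z => y ((A.e i).symm z)) ((A.e i).target ∩ (A.e i).symm ⁻¹' univ) :=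
  (h i).mono inter_subset_left

theorem le_of_map_top {T : Submodule ℂ W} {B : W →L[ℂ] X} (h : T.map (B : W →ₗ[ℂ] X) = ⊤) :
    finrank ℂ X ≤ finrank ℂ T := by
  have := Submodule.finrank_map_le (B : W →ₗ[ℂ] X) T
  rwa [h, finrank_top] at this

/-- lower semicontinuity of the rank -/
theorem HolV.ev_le (h : HolV A F) {m : ℕ} (hm : m ≤ finrank ℂ (Tg A F x)) :
    ∀ᶠ y in 𝓝 x, m ≤ finrank ℂ (Tg A F y) := by
  obtain ⟨B, hB⟩ := exists_onto (X := Cn m) (T := Tg A F x) (by simpa using hm)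
  have h1 := isOpen_regular (A := A) (y := fun x => B (F x)) isOpen_univ (h.clm B).on
  filter_upwards [h1.mem_nhds ⟨mem_univ x, (h.clm B).not_crit.2 (by rwa [h.tg_clm])⟩] with y hy
  have h2 := (h.clm B).not_crit.1 hy.2
  rw [h.tg_clm] at h2
  simpa using le_of_map_top h2

/-- the points of rank at least `m` are dense as soon as there is one -/
theorem HolV.dense_le [PreconnectedSpace M] (h : HolV A F) {m : ℕ}
    (hm : m ≤ finrank ℂ (Tg A F x)) : Dense {y | m ≤ finrank ℂ (Tg A F y)} := by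
  obtain ⟨B, hB⟩ := exists_onto (X := Cn m) (T := Tg A F x) (by simpa using hm)
  have h1 := (sthM_crit isOpen_univ isPreconnected_univ (h.clm B).on
    ⟨x, mem_univ x, (h.clm B).not_crit.2 (by rwa [h.tg_clm])⟩).dense_compl
  refine h1.mono fun y hy => ?_
  have h2 := (h.clm B).not_crit.1 hy
  rw [h.tg_clm] at h2
  simpa using le_of_map_top h2

/-- identity theorem for the rank -/
theorem HolV.le_of_ev [PreconnectedSpace M] (h : HolV A F) {s : ℕ}
    (hs : ∀ᶠ y in 𝓝 x, finrank ℂ (Tg A F y) ≤ s) (y : M) : finrank ℂ (Tg A F y) ≤ s := by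
  by_contra hcon
  obtain ⟨z, h1, h2⟩ := (h.dense_le (m := s + 1) (x := y) (by omega)).inter_nhds_nonempty hs
  have h3 : s + 1 ≤ finrank ℂ (Tg A F z) := h1
  have h4 : finrank ℂ (Tg A F z) ≤ s := h2
  omega

/-- the maximal rank -/
def rmax (A : Atl n M) (F : M → W) : ℕ := sSup (range fun x => finrank ℂ (Tg A F x))

theorem le_rmax (x : M) : finrank ℂ (Tg A F x) ≤ rmax A F :=
  le_csSup ⟨n, by rintro _ ⟨y, rfl⟩; exact finrank_tg_le F y⟩ ⟨x, rfl⟩

theorem exists_rmax [Nonempty M] (A : Atl n M) (F : M → W) :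
    ∃ x, finrank ℂ (Tg A F x) = rmax A F :=
  Nat.sSup_mem (range_nonempty _) ⟨n, by rintro _ ⟨y, rfl⟩; exact finrank_tg_le F y⟩

/-- the directions which are tangent to the image at all points of maximal rank -/
def D0 (A : Atl n M) (F : M → W) : Submodule ℂ W :=
  ⨅ x, ⨅ _ : finrank ℂ (Tg A F x) = rmax A F, Tg A F x

theorem mem_D0 {h : W} : h ∈ D0 A F ↔ ∀ x, finrank ℂ (Tg A F x) = rmax A F → h ∈ Tg A F x := by
  simp only [D0, Submodule.mem_iInf]

/-- a subspace tangent near one point of maximal rank is tangent at all such points -/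
theorem HolV.le_D0 [PreconnectedSpace M] (h : HolV A F) {D : Submodule ℂ W}
    (hD : ∀ᶠ y in 𝓝 x, D ≤ Tg A F y) : D ≤ D0 A F := by
  obtain ⟨P, hP, -⟩ := exists_proj D
  have h1 : ∀ y, finrank ℂ (Tg A (fun y => P (F y)) y) ≤ rmax A F - finrank ℂ D := by
    refine (h.clm P).le_of_ev (x := x) ?_
    filter_upwards [hD] with y hy
    have h2 := fr_map (P : W →ₗ[ℂ] W) (Tg A F y)
    rw [hP, inf_eq_right.2 hy] at h2
    have h3 := le_rmax (A := A) (F := F) y
    rw [h.tg_clm]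
    omega
  intro w hw
  refine mem_D0.2 fun y hy => ?_
  have h2 := fr_map (P : W →ₗ[ℂ] W) (Tg A F y)
  have h3 := h1 y
  have h4 := (Submodule.finrank_mono hD.self_of_nhds).trans (le_rmax (A := A) (F := F) x)
  rw [h.tg_clm] at h3
  rw [hP] at h2
  have h5 : Tg A F y ⊓ D = D := Submodule.eq_of_le_of_finrank_le inf_le_right (by omega)
  rw [← h5] at hw
  exact hw.1

theorem HolV.rank_proj [PreconnectedSpace M] [Nonempty M] (h : HolV A F) {P : W →L[ℂ] W}
    (hP : LinearMap.ker (P : W →ₗ[ℂ] W) = D0 A F) (y : M) :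
    finrank ℂ (Tg A (fun y => P (F y)) y) ≤ rmax A F - finrank ℂ (D0 A F) := by
  obtain ⟨x, hx⟩ := exists_rmax A F
  refine (h.clm P).le_of_ev (x := x) ?_ y
  filter_upwards [h.ev_le hx.ge] with y hy
  have h1 := le_antisymm (le_rmax y) hy
  have h2 := fr_map (P : W →ₗ[ℂ] W) (Tg A F y)
  rw [hP, inf_eq_right.2 fun w hw => mem_D0.1 hw y h1] at h2
  rw [h.tg_clm]
  omega

variable {K : Set M} {Λ : AddSubgroup W}

/-- **Ueno**: modulo `D0` the Gauss map has maximal rank `p = rmax - dim D0`. -/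
theorem Per.gauss [PreconnectedSpace M] [Nonempty M] (Pe : Per F K Λ) (h : HolV A F) {R : ℝ}
    (hR : ∀ w : W, ∃ l ∈ Λ, ‖w - l‖ ≤ R) {P : W →L[ℂ] W}
    (hP : LinearMap.ker (P : W →ₗ[ℂ] W) = D0 A F) (hPP : ∀ w, P (P w) = P w) {p : ℕ}
    (hp : p + finrank ℂ (D0 A F) = rmax A F) :
    ∃ (i : A.ι) (x : M) (m l : Fin p → W →L[ℂ] ℂ) (j : Fin p → Fin p) (z : Fin p → M → ℂ),
      x ∈ (A.e i).source ∧
      LinearIndependent ℂ (fun a => (m a).comp (dF A i (fun y => P (F y)) x)) ∧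
      (∀ᶠ y in 𝓝 x, ∀ k, ∃ c : Fin p → ℂ, c (j k) = z k y ∧
        (l k).comp (dF A i (fun y => P (F y)) y) =
          ∑ a, c a • (m a).comp (dF A i (fun y => P (F y)) y)) ∧
      (∀ k, AnalyticAt ℂ (fun w => z k ((A.e i).symm w)) (A.e i x)) ∧
      LinearIndependent ℂ fun k => dF A i (z k) x := by
  have := countable_of_fin Pe.fin
  have : CompleteSpace W := FiniteDimensional.complete ℂ W
  set r := rmax A F with hr
  obtain ⟨x₀, hx₀⟩ := exists_rmax A F
  have hfr : finrank ℂ (Cn r) = r := by simp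
  obtain ⟨B, hB⟩ := exists_onto (X := Cn r) (T := Tg A F x₀) (by rw [hfr, hx₀])
  have hrk : ∀ y, finrank ℂ (Tg A F y) ≤ finrank ℂ (Cn r) := fun y => by
    rw [hfr]; exact le_rmax y
  obtain ⟨ρ, hρ, g, σ, a1, a2, a2', a3, a4⟩ := h.graph B hrk hB
  set O := ball (B (F x₀)) ρ with hO
  have hBg : ∀ u ∈ O, ∀ a, B (fderiv ℂ g u a) = a := fun u hu a =>
    Core.B_fderiv isOpen_ball a1 (fun u hu => (a3 u hu).2.1) hu a
  have hσr : ∀ u ∈ O, finrank ℂ (Tg A F (σ u)) = r := by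
    intro u hu
    refine le_antisymm (le_rmax _) ?_
    rw [← (a3 u hu).2.2]
    exact hfr.ge.trans (le_rk (B := B) fun a => ⟨a, hBg u hu a⟩)
  have hD1 : ∀ w ∈ D0 A F, ∀ u ∈ O, fderiv ℂ g u (B w) = w := by
    intro w hw u hu
    have h1 := mem_D0.1 hw _ (hσr u hu)
    rw [← (a3 u hu).2.2] at h1
    obtain ⟨a, rfl⟩ := h1
    change fderiv ℂ g u (B (fderiv ℂ g u a)) = fderiv ℂ g u a
    rw [hBg u hu]
  -- the good neighbourhood of `x₀`
  have hFc := h.continuous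
  obtain ⟨U, hU1, hUo, hUx⟩ := _root_.eventually_nhds_iff.1 ((a4.eventually_nhds.and
    (h.ev_le hx₀.ge)).and ((B.continuous.comp hFc).continuousAt.eventually
      (ball_mem_nhds (B (F x₀)) hρ)))
  have hdF : ∀ y ∈ U, ∀ i, y ∈ (A.e i).source →
      ∀ v, dF A i F y v = fderiv ℂ g (B (F y)) (B (dF A i F y v)) := by
    intro y hy i hi v
    have h1 : HasFDerivAt g (fderiv ℂ g (B (F y))) (B (F ((A.e i).symm (A.e i y)))) := by
      rw [(A.e i).left_inv hi]; exact (a1 _ (hU1 y hy).2).differentiableAt.hasFDerivAt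
    have h2 := HasFDerivAt.comp (f := fun z => B (F ((A.e i).symm z))) _ h1
      (B.hasFDerivAt.comp _ (h.anAt hi).differentiableAt.hasFDerivAt)
    have h3 : ∀ᶠ z in 𝓝 (A.e i y), F ((A.e i).symm z) = g (B (F ((A.e i).symm z))) :=
      ((A.e i).continuousAt_symm ((A.e i).map_source hi)).eventually
        (by rw [(A.e i).left_inv hi]; exact (hU1 y hy).1.1)
    exact congrArg (fun L : Cn n →L[ℂ] W => L v) (h2.congr_of_eventuallyEq h3).fderiv
  have hTg : ∀ y ∈ U, Tg A F y = LinearMap.range (fderiv ℂ g (B (F y)) : Cn r →ₗ[ℂ] W) := by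
    intro y hy
    refine Submodule.eq_of_le_of_finrank_le ?_ ((LinearMap.finrank_range_le _).trans
      (hfr.le.trans (hU1 y hy).1.2))
    rintro _ ⟨v, rfl⟩
    exact ⟨_, (hdF y hy _ (A.cover y).choose_spec v).symm⟩
  have hD2 : ∀ w, (∀ u ∈ O, fderiv ℂ g u (B w) = w) → w ∈ D0 A F := by
    intro w hw
    refine h.le_D0 (x := x₀) (D := Submodule.span ℂ {w}) ?_ (Submodule.mem_span_singleton_self w)
    filter_upwards [hUo.mem_nhds hUx] with y hy
    rw [Submodule.span_singleton_le_iff_mem, hTg y hy]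
    exact ⟨_, hw _ (hU1 y hy).2⟩
  -- a point of maximal rank of the second derivative
  obtain ⟨δ, hδ, hδs⟩ : ∃ δ > 0, ball (B (F x₀)) δ ⊆ O ∩ σ ⁻¹' U :=
    Metric.mem_nhds_iff.1 (inter_mem (ball_mem_nhds _ hρ)
      ((a2'.continuousAt (ball_mem_nhds _ hρ)).preimage_mem_nhds (by rw [a2]; exact hUo.mem_nhds hUx)))
  obtain ⟨u₁, hu₁, hmax⟩ : ∃ u₁ ∈ ball (B (F x₀)) δ, ∀ u ∈ ball (B (F x₀)) δ,
      rk (Hs g u) ≤ rk (Hs g u₁) := by
    have hbdd : BddAbove ((fun u => rk (Hs g u)) '' ball (B (F x₀)) δ) :=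
      ⟨_, by rintro _ ⟨z, _, rfl⟩; exact LinearMap.finrank_range_le _⟩
    obtain ⟨u₁, hu₁, h1⟩ := Nat.sSup_mem (s := (fun u => rk (Hs g u)) '' ball (B (F x₀)) δ)
      ⟨_, _, mem_ball_self hδ, rfl⟩ hbdd
    exact ⟨u₁, hu₁, fun u hu => (le_csSup hbdd ⟨u, hu, rfl⟩).trans h1.ge⟩
  have hu₁O : u₁ ∈ O := (hδs hu₁).1
  have hcore : ∀ a, Hs g u₁ a = 0 → fderiv ℂ g u₁ a ∈ D0 A F := by
    intro a ha
    have h1 := Core.core (Pe.isClosed hFc) hR Pe.add_mem (Pe.sth_bad h B)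
      (fun p _ hp => Pe.locG h B hrk hp) isOpen_ball (convex_ball _ δ).isPreconnected
      (fun u hu => a1 u (hδs hu).1) (fun u hu => ⟨_, (a3 u (hδs hu).1).1.symm⟩)
      (fun u hu => (a3 u (hδs hu).1).2.1) hu₁ hmax ha
    have h2 : AnalyticOnNhd ℂ (fun u => fderiv ℂ g u a - fderiv ℂ g u₁ a) O := fun u hu =>
      (an_apply (an_fd (a1 u hu)) analyticAt_const).sub analyticAt_const
    have h3 := h2.eqOn_zero_of_preconnected_of_eventuallyEq_zero (convex_ball _ ρ).isPreconnected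
      hu₁O (by
        filter_upwards [isOpen_ball.mem_nhds hu₁] with u hu using sub_eq_zero.2 (h1 u hu))
    refine hD2 _ fun u hu => ?_
    rw [hBg u₁ hu₁O]
    exact sub_eq_zero.1 (h3 hu)
  set D' : Submodule ℂ (Cn r) := (D0 A F).map (B : W →ₗ[ℂ] Cn r) with hD'
  have hD'r : p + finrank ℂ D' = finrank ℂ (Cn r) := by
    have h1 := fr_map (B : W →ₗ[ℂ] Cn r) (D0 A F)
    have h2 : D0 A F ⊓ LinearMap.ker (B : W →ₗ[ℂ] Cn r) = ⊥ := by
      refine eq_bot_iff.2 fun w hw => ?_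
      have h3 : B w = 0 := hw.2
      have h4 := hD1 w hw.1 u₁ hu₁O
      rw [h3, map_zero] at h4
      exact h4.symm
    rw [h2, finrank_bot, ← hD'] at h1
    omega
  obtain ⟨Q, Rr, hQR, hQ⟩ := exists_quot D' hD'r
  have hPD : ∀ w, P w = 0 ↔ w ∈ D0 A F := fun w => by rw [← hP]; rfl
  have hQBP : ∀ w, Q (B (P w)) = Q (B w) := by
    intro w
    rw [← sub_eq_zero, ← map_sub, ← map_sub, hQ]
    exact ⟨_, (hPD _).1 (by rw [map_sub, hPP, sub_self]), rfl⟩
  have hsplit : ∀ u ∈ O, ∀ a, P (fderiv ℂ g u a) = P (fderiv ℂ g u (Rr (Q a))) := by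
    intro u hu a
    rw [← sub_eq_zero, ← map_sub, ← map_sub, hPD]
    obtain ⟨w, hw, e⟩ := (hQ (a - Rr (Q a))).1 (by rw [map_sub, hQR, sub_self])
    rw [← e]
    change fderiv ℂ g u (B w) ∈ _
    rwa [hD1 w hw u hu]
  -- the functionals
  set φ : (W →L[ℂ] ℂ) × Fin p → Cn r →L[ℂ] ℂ := fun q =>
    (q.1.comp P).comp ((Hs g u₁).flip (Rr (Pi.single q.2 1))) with hφ
  have hHs : ∀ b : Cn r, HasFDerivAt (fun u => fderiv ℂ g u b) ((Hs g u₁).flip b) u₁ := by
    intro b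
    have := (an_fd (a1 u₁ hu₁O)).differentiableAt.hasFDerivAt.clm_apply (hasFDerivAt_const b u₁)
    refine this.congr_fderiv ?_
    ext v
    simp [Hs]
  have hconst : ∀ {E : Type} [NormedAddCommGroup E] [NormedSpace ℂ E] (T : W →L[ℂ] E) (b : Cn r)
      (c : E), (∀ u ∈ O, T (fderiv ℂ g u b) = c) → ∀ a, T (Hs g u₁ a b) = 0 := by
    intro E _ _ T b c hc a
    have h1 := T.hasFDerivAt.comp u₁ (hHs b)
    have h2 : HasFDerivAt (T ∘ fun u => fderiv ℂ g u b) (0 : Cn r →L[ℂ] E) u₁ := by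
      refine (hasFDerivAt_const c u₁).congr_of_eventuallyEq ?_
      filter_upwards [isOpen_ball.mem_nhds hu₁O] with u hu using hc u hu
    exact congrArg (fun L : Cn r →L[ℂ] E => L a) (h1.unique h2)
  obtain ⟨c, hc⟩ := exists_indep φ D' hD'r (by
    intro a ha
    have h1 : ∀ j, Hs g u₁ a (Rr (Pi.single j 1)) = 0 := by
      intro j
      have h2 : P (Hs g u₁ a (Rr (Pi.single j 1))) = 0 :=
        SeparatingDual.eq_zero_of_forall_dual_eq_zero (R := ℂ) fun l => ha (l, j)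
      have h3 := hD1 _ ((hPD _).1 h2) u₁ hu₁O
      rw [hconst B _ _ (fun u hu => hBg u hu _), map_zero] at h3
      exact h3.symm
    have h4 : Hs g u₁ a = 0 := by
      ext b
      obtain ⟨w, hw, e⟩ := (hQ (b - Rr (Q b))).1 (by rw [map_sub, hQR, sub_self])
      have h5 : Hs g u₁ a (b - Rr (Q b)) = 0 := by
        rw [← e]
        exact hconst (ContinuousLinearMap.id ℂ W) (B w) w (fun u hu => hD1 w hw u hu) a
      have h6 : Hs g u₁ a (Rr (Q b)) = 0 := by
        rw [pi_eq_sum_univ' (Q b), map_sum, map_sum]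
        refine Finset.sum_eq_zero fun j _ => ?_
        rw [map_smul, map_smul, h1, smul_zero]
      rwa [map_sub, h6, sub_zero] at h5
    exact ⟨_, hcore a h4, hBg u₁ hu₁O a⟩)
  set x₁ := σ u₁ with hx₁
  have hx₁U : x₁ ∈ U := (hδs hu₁).2
  have hBx₁ : B (F x₁) = u₁ := by rw [hx₁, ← (a3 u₁ hu₁O).1, (a3 u₁ hu₁O).2.1]
  obtain ⟨i, hi⟩ := A.cover x₁
  have hsurj : Function.Surjective (B.comp (dF A i F x₁)) := by
    intro a
    have h1 : fderiv ℂ g u₁ a ∈ Tg A F x₁ := by rw [← (a3 u₁ hu₁O).2.2]; exact ⟨a, rfl⟩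
    rw [h.tg_eq hi] at h1
    obtain ⟨v, hv⟩ := h1
    refine ⟨v, ?_⟩
    change B (dF A i F x₁ v) = a
    rw [show dF A i F x₁ v = fderiv ℂ g u₁ a from hv, hBg u₁ hu₁O]
  have hBF : HasFDerivAt (fun w => B (F ((A.e i).symm w))) (B.comp (dF A i F x₁)) (A.e i x₁) :=
    B.hasFDerivAt.comp _ (h.anAt hi).differentiableAt.hasFDerivAt
  have hpt : B (F ((A.e i).symm (A.e i x₁))) = u₁ := by rw [(A.e i).left_inv hi, hBx₁]
  refine ⟨i, x₁, fun a => (ContinuousLinearMap.proj a).comp (Q.comp B), fun k => (c k).1,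
    fun k => (c k).2,
    fun k y => (c k).1 (P (fderiv ℂ g (B (F y)) (Rr (Pi.single (c k).2 1)))), hi, ?_, ?_, ?_, ?_⟩
  · have h1 := indep_comp (indep_proj p) (T := Q.comp (B.comp (dF A i F x₁))) (by
      intro s
      obtain ⟨v, hv⟩ := hsurj (Rr s)
      exact ⟨v, by rw [ContinuousLinearMap.comp_apply, hv, hQR]⟩)
    convert h1 using 2 with a
    ext v
    rw [h.dF_clm P hi]
    simp [hQBP]
  · filter_upwards [hUo.mem_nhds hx₁U, (A.e i).open_source.mem_nhds hi] with y hy hyi k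
    refine ⟨fun a => (c k).1 (P (fderiv ℂ g (B (F y)) (Rr (Pi.single a 1)))), rfl, ?_⟩
    ext v
    rw [h.dF_clm P hyi]
    simp only [ContinuousLinearMap.comp_apply, sum_apply,
      smul_apply, ContinuousLinearMap.proj_apply, hQBP, smul_eq_mul]
    conv_lhs => rw [hdF y hy i hyi v, hsplit (B (F y)) (hU1 y hy).2, pi_eq_sum_univ' (Q _)]
    simp only [map_sum, map_smul, smul_eq_mul]
    exact Finset.sum_congr rfl fun a _ => mul_comm _ _
  · intro k
    have h1 : AnalyticAt ℂ (fun w => fderiv ℂ g (B (F ((A.e i).symm w)))) (A.e i x₁) :=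
      AnalyticAt.comp (g := fderiv ℂ g) (by rw [hpt]; exact an_fd (a1 u₁ hu₁O))
        ((h.clm B).anAt hi)
    exact ((c k).1.analyticAt _).comp ((P.analyticAt _).comp (an_apply h1 analyticAt_const))
  · have h1 := indep_comp hc hsurj
    convert h1 using 2 with k
    have h2 : HasFDerivAt (fun u => fderiv ℂ g u (Rr (Pi.single (c k).2 1)))
        ((Hs g u₁).flip (Rr (Pi.single (c k).2 1))) (B (F ((A.e i).symm (A.e i x₁)))) := by
      rw [hpt]; exact hHs _
    exact (((c k).1.comp P).hasFDerivAt.comp _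
      (HasFDerivAt.comp (f := fun w => B (F ((A.e i).symm w))) _ h2 hBF)).fderiv

end Crest.Agent.X261.Uen
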