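import Crest.Agent.X261.Uen.Core

/-!
X261 / Uen / Glob (helper80): holomorphic maps `F : M → W` whose image is `F(K) + Λ`
(`K` compact, `Λ` discrete): the image is closed and generically a finite union of graphs.
-/

set_option autoImplicit false
set_option linter.unusedSectionVars false

open Set Filter Topology Metric Module

noncomputable section

namespace Crest.Agent.X261.Uen

open Crest.Agent.R281.Thn_280 Crest.Agent.X261.Uen.Thin Crest.Agent.X261.Uen.Dev
open Crest.Agent.R275.Geo Crest.Agent.R281.ThnM_280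

variable {n : ℕ} {M : Type} [TopologicalSpace M] {A : Atl n M}
  {W X : Type} [NormedAddCommGroup W] [NormedSpace ℂ W] [FiniteDimensional ℂ W]
  [NormedAddCommGroup X] [NormedSpace ℂ X] [FiniteDimensional ℂ X]

/-- holomorphic maps to a vector space -/
def HolV (A : Atl n M) (F : M → W) : Prop :=
  ∀ i, DifferentiableOn ℂ (fun z => F ((A.e i).symm z)) (A.e i).target

/-- the differential in the chart `i` -/
def dF (A : Atl n M) (i : A.ι) (F : M → W) (x : M) : Cn n →L[ℂ] W :=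
  fderiv ℂ (fun z => F ((A.e i).symm z)) (A.e i x)

variable {F : M → W} {i j : A.ι} {x : M}

theorem HolV.an (h : HolV A F) (i : A.ι) :
    AnalyticOnNhd ℂ (fun z => F ((A.e i).symm z)) (A.e i).target := by
  have : CompleteSpace W := FiniteDimensional.complete ℂ W
  exact Crest.Agent.R266.SCV.analyticOnNhd_of_differentiableOn (A.e i).open_target (h i)

theorem HolV.anAt (h : HolV A F) (hx : x ∈ (A.e i).source) :
    AnalyticAt ℂ (fun z => F ((A.e i).symm z)) (A.e i x) := h.an i _ ((A.e i).map_source hx)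

theorem HolV.continuous (h : HolV A F) : Continuous F := by
  rw [continuous_iff_continuousAt]
  intro x
  obtain ⟨i, hi⟩ := A.cover x
  have h2 : ContinuousAt (fun y => F ((A.e i).symm (A.e i y))) x :=
    ContinuousAt.comp (g := fun z => F ((A.e i).symm z)) (h.anAt hi).continuousAt
      ((A.e i).continuousAt hi)
  refine h2.congr ?_
  filter_upwards [(A.e i).open_source.mem_nhds hi] with y hy
  rw [(A.e i).left_inv hy]

theorem HolV.clm (h : HolV A F) (B : W →L[ℂ] X) : HolV A fun x => B (F x) := fun i =>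
  B.differentiable.comp_differentiableOn (h i)

theorem HolV.dF_clm (h : HolV A F) (B : W →L[ℂ] X) (hx : x ∈ (A.e i).source) :
    dF A i (fun x => B (F x)) x = B.comp (dF A i F x) :=
  (B.hasFDerivAt.comp _ (h.anAt hx).differentiableAt.hasFDerivAt).fderiv

theorem HolV.dF_chg (h : HolV A F) (hi : x ∈ (A.e i).source) (hj : x ∈ (A.e j).source) :
    dF A i F x = (dF A j F x).comp (fderiv ℂ (fun z => A.e j ((A.e i).symm z)) (A.e i x)) := by
  have ho : IsOpen (A.ov i j) := (A.e i).isOpen_inter_preimage_symm (A.e j).open_source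
  have hz : A.e i x ∈ A.ov i j := ⟨(A.e i).map_source hi, by rwa [(A.e i).left_inv hi]⟩
  have h1 := ((A.holo i j).differentiableAt (ho.mem_nhds hz)).hasFDerivAt
  have h2 : HasFDerivAt (fun z => F ((A.e j).symm z)) (dF A j F x)
      (A.e j ((A.e i).symm (A.e i x))) := by
    rw [(A.e i).left_inv hi]; exact (h.anAt hj).differentiableAt.hasFDerivAt
  refine ((HasFDerivAt.comp (f := fun z => A.e j ((A.e i).symm z)) _ h2 h1).congr_of_eventuallyEq
    ?_).fderiv
  filter_upwards [ho.mem_nhds hz] with z hz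
  simp only [Function.comp, (A.e j).left_inv hz.2]

theorem HolV.range_chg (h : HolV A F) (hi : x ∈ (A.e i).source) (hj : x ∈ (A.e j).source) :
    LinearMap.range (dF A i F x : Cn n →ₗ[ℂ] W) = LinearMap.range (dF A j F x : Cn n →ₗ[ℂ] W) := by
  have : ∀ {i j : A.ι}, x ∈ (A.e i).source → x ∈ (A.e j).source →
      LinearMap.range (dF A i F x : Cn n →ₗ[ℂ] W) ≤ LinearMap.range (dF A j F x : Cn n →ₗ[ℂ] W) := by
    rintro i j hi hj _ ⟨v, rfl⟩
    exact ⟨_, (congrArg (fun L : Cn n →L[ℂ] W => L v) (h.dF_chg hi hj)).symm⟩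
  exact le_antisymm (this hi hj) (this hj hi)

/-- the image of the differential -/
def Tg (A : Atl n M) (F : M → W) (x : M) : Submodule ℂ W :=
  LinearMap.range (dF A (A.cover x).choose F x : Cn n →ₗ[ℂ] W)

theorem HolV.tg_eq (h : HolV A F) (hi : x ∈ (A.e i).source) :
    Tg A F x = LinearMap.range (dF A i F x : Cn n →ₗ[ℂ] W) :=
  h.range_chg (A.cover x).choose_spec hi

theorem HolV.tg_clm (h : HolV A F) (B : W →L[ℂ] X) (x : M) :
    Tg A (fun x => B (F x)) x = (Tg A F x).map (B : W →ₗ[ℂ] X) := by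
  unfold Tg
  rw [h.dF_clm B (A.cover x).choose_spec, ← LinearMap.range_comp]
  rfl

theorem finrank_tg_le (F : M → W) (x : M) : finrank ℂ (Tg A F x) ≤ n := by
  have := LinearMap.finrank_range_le (dF A (A.cover x).choose F x : Cn n →ₗ[ℂ] W)
  rw [finrank_euclideanSpace, Fintype.card_fin] at this
  exact this

theorem dF_symm (F : M → W) {z : Cn n} (hz : z ∈ (A.e i).target) :
    dF A i F ((A.e i).symm z) = fderiv ℂ (fun z => F ((A.e i).symm z)) z := by
  unfold dF; rw [(A.e i).right_inv hz]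

/-- neighbourhoods in a chart -/
theorem ev_chart (hi : x ∈ (A.e i).source) {P : M → Prop}
    (h : ∀ᶠ z in 𝓝 (A.e i x), P ((A.e i).symm z)) : ∀ᶠ y in 𝓝 x, P y := by
  filter_upwards [((A.e i).continuousAt hi).eventually h, (A.e i).open_source.mem_nhds hi]
    with y h1 h2
  rwa [(A.e i).left_inv h2] at h1

/-- local graph at a point where `B ∘ F` is submersive -/
theorem HolV.graph (h : HolV A F) (B : W →L[ℂ] X) (hr : ∀ y, finrank ℂ (Tg A F y) ≤ finrank ℂ X)
    (hs : (Tg A F x).map (B : W →ₗ[ℂ] X) = ⊤) :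
    ∃ ρ > 0, ∃ (g : X → W) (σ : X → M), AnalyticOnNhd ℂ g (ball (B (F x)) ρ) ∧ σ (B (F x)) = x ∧
      ContinuousOn σ (ball (B (F x)) ρ) ∧
      (∀ u ∈ ball (B (F x)) ρ, g u = F (σ u) ∧ B (g u) = u ∧
        LinearMap.range (fderiv ℂ g u : X →ₗ[ℂ] W) = Tg A F (σ u)) ∧
      ∀ᶠ y in 𝓝 x, F y = g (B (F y)) := by
  obtain ⟨i, hi⟩ := A.cover x
  obtain ⟨ρ, hρ, σ, h1, h2, h3, h4⟩ := locGraph (A.e i).open_target (h.an i)
    ((A.e i).map_source hi) B (fun u => by
      have hu : u ∈ (Tg A F x).map (B : W →ₗ[ℂ] X) := by rw [hs]; trivial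
      rw [h.tg_eq hi] at hu
      obtain ⟨_, ⟨v, rfl⟩, hv⟩ := hu
      exact ⟨v, hv⟩) (fun z hz => by
      have := hr ((A.e i).symm z)
      rwa [h.tg_eq ((A.e i).map_target hz), dF_symm F hz] at this)
  simp only [(A.e i).left_inv hi] at h1 h2 h3
  have hg : AnalyticOnNhd ℂ (fun u => F ((A.e i).symm (σ u))) (ball (B (F x)) ρ) := fun u hu =>
    AnalyticAt.comp (g := fun z => F ((A.e i).symm z)) (h.an i _ (h3 u hu).1) (h1 u hu)
  refine ⟨ρ, hρ, fun u => F ((A.e i).symm (σ u)), fun u => (A.e i).symm (σ u), hg,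
    by simp only [h2, (A.e i).left_inv hi],
    (A.e i).continuousOn_symm.comp h1.continuousOn fun u hu => (h3 u hu).1,
    fun u hu => ⟨rfl, (h3 u hu).2, ?_⟩, ev_chart hi (P := fun y => F y =
      F ((A.e i).symm (σ (B (F y))))) h4⟩
  refine Submodule.eq_of_le_of_finrank_le ?_ ((hr _).trans ?_)
  · rw [h.tg_eq ((A.e i).map_target (h3 u hu).1), dF_symm F (h3 u hu).1]
    rintro _ ⟨v, rfl⟩
    have h5 := (HasFDerivAt.comp (g := fun z => F ((A.e i).symm z)) u
      (h.an i _ (h3 u hu).1).differentiableAt.hasFDerivAt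
      (h1 u hu).differentiableAt.hasFDerivAt).fderiv
    exact ⟨_, (congrArg (fun L : X →L[ℂ] W => L v) h5).symm⟩
  · exact le_rk (B := B) fun a =>
      ⟨a, Core.B_fderiv isOpen_ball hg (fun u hu => (h3 u hu).2) hu a⟩

/-- the image of `F` is `F(K) + Λ` -/
structure Per (F : M → W) (K : Set M) (Λ : AddSubgroup W) : Prop where
  cpt : IsCompact K
  fin : ∀ R : ℝ, {l | l ∈ Λ ∧ ‖l‖ ≤ R}.Finite
  cov : ∀ x, ∃ k ∈ K, ∃ l ∈ Λ, F x = F k + l
  per : ∀ x, ∀ l ∈ Λ, ∃ y, F y = F x + l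

variable {K : Set M} {Λ : AddSubgroup W}

theorem countable_of_fin (h : ∀ R : ℝ, {l | l ∈ Λ ∧ ‖l‖ ≤ R}.Finite) : Countable Λ := by
  have h1 : (Λ : Set W).Countable := by
    refine (countable_iUnion fun k : ℕ => (h k).countable).mono fun l hl => ?_
    obtain ⟨k, hk⟩ := exists_nat_ge ‖l‖
    exact mem_iUnion.2 ⟨k, hl, hk⟩
  exact h1.to_subtype

/-- compact plus discrete: near `p` only finitely many translates matter -/
theorem loc_fin (h : ∀ R : ℝ, {l | l ∈ Λ ∧ ‖l‖ ≤ R}.Finite) {C : Set W} (hC : IsCompact C)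
    (p : W) : ∃ T : Set W, T.Finite ∧ T ⊆ Λ ∧
      ∀ᶠ w in 𝓝 p, ∀ c ∈ C, ∀ l ∈ Λ, w = c + l → l ∈ T := by
  obtain ⟨R, hR⟩ := hC.isBounded.exists_norm_le
  refine ⟨_, h (‖p‖ + 1 + R), fun l hl => hl.1, ?_⟩
  filter_upwards [ball_mem_nhds p one_pos] with w hw c hc l hl hwl
  refine ⟨hl, ?_⟩
  have h1 : l = p + (w - p) - c := by rw [hwl]; abel
  rw [mem_ball, dist_eq_norm] at hw
  rw [h1]
  linarith [norm_sub_le (p + (w - p)) c, norm_add_le p (w - p), hR c hc]

theorem isClosed_add (h : ∀ R : ℝ, {l | l ∈ Λ ∧ ‖l‖ ≤ R}.Finite) {C : Set W} (hC : IsCompact C) :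
    IsClosed {w | ∃ c ∈ C, ∃ l ∈ Λ, w = c + l} := by
  refine isClosed_of_closure_subset fun p hp => ?_
  obtain ⟨T, hT, hTΛ, hev⟩ := loc_fin h hC p
  have h1 : IsClosed (⋃ l ∈ T, (fun c => c + l) '' C) :=
    hT.isClosed_biUnion fun l _ => (hC.image (by fun_prop)).isClosed
  have h2 : p ∈ closure (⋃ l ∈ T, (fun c => c + l) '' C) := by
    rw [mem_closure_iff_frequently] at hp ⊢
    refine (hp.and_eventually hev).mono ?_
    rintro w ⟨⟨c, hc, l, hl, hw⟩, h3⟩
    exact mem_iUnion₂.2 ⟨l, h3 c hc l hl hw, c, hc, hw.symm⟩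
  obtain ⟨l, hl, c, hc, hw⟩ := mem_iUnion₂.1 (h1.closure_subset h2)
  exact ⟨c, hc, l, hTΛ hl, hw.symm⟩

theorem Per.add_mem (P : Per F K Λ) : ∀ z ∈ range F, ∀ l ∈ Λ, z + l ∈ range F := by
  rintro _ ⟨x, rfl⟩ l hl
  exact P.per x l hl

theorem Per.isClosed (P : Per F K Λ) (h : Continuous F) : IsClosed (range F) := by
  have h1 : range F = {w | ∃ c ∈ F '' K, ∃ l ∈ Λ, w = c + l} := by
    ext w
    constructor
    · rintro ⟨x, rfl⟩
      obtain ⟨k, hk, l, hl, e⟩ := P.cov x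
      exact ⟨_, ⟨k, hk, rfl⟩, l, hl, e⟩
    · rintro ⟨_, ⟨k, -, rfl⟩, l, hl, rfl⟩
      exact P.per k l hl
  rw [h1]
  exact isClosed_add P.fin (P.cpt.image h)

theorem sth_transl {E : Set X} (hE : STh E) (c : X) : STh {u | u - c ∈ E} := by
  refine (hE.preimage isOpen_univ (F := fun u => u - c) (fun u _ => by fun_prop) fun u _ => ?_).mono
    fun u hu => ⟨trivial, hu⟩
  have h : HasFDerivAt (fun u : X => u - c) (ContinuousLinearMap.id ℂ X) u :=
    (hasFDerivAt_id u).sub_const c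
  rw [h.fderiv]
  exact Function.surjective_id

/-- critical values on a compact set -/
theorem HolV.sth_crit (h : HolV A F) (hK : IsCompact K) : STh (F '' {k | k ∈ K ∧ Tg A F k ≠ ⊤}) := by
  obtain ⟨t, -, ht⟩ := hK.elim_nhds_subcover (fun x => (A.e (A.cover x).choose).source)
    fun x _ => (A.e _).open_source.mem_nhds (A.cover x).choose_spec
  refine (sth_iUnion fun p : t => sard (A.e (A.cover (p : M)).choose).open_target
    (h.an (A.cover (p : M)).choose)).mono ?_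
  rintro _ ⟨k, ⟨hk, hk'⟩, rfl⟩
  obtain ⟨p, hp, hkp⟩ := mem_iUnion₂.1 (ht hk)
  refine mem_iUnion.2 ⟨⟨p, hp⟩, _, ⟨(A.e _).map_source hkp, fun hs => hk' ?_⟩,
    by simp only [(A.e _).left_inv hkp]⟩
  rw [h.tg_eq hkp, LinearMap.range_eq_top]
  exact hs

/-- the bad values of `B ∘ F` -/
def Bad (A : Atl n M) (F : M → W) (K : Set M) (Λ : AddSubgroup W) (B : W →L[ℂ] X) : Set X :=
  {u | ∃ k ∈ K, ∃ l ∈ Λ, (Tg A F k).map (B : W →ₗ[ℂ] X) ≠ ⊤ ∧ u = B (F k + l)}

theorem Per.sth_bad (P : Per F K Λ) (h : HolV A F) (B : W →L[ℂ] X) : STh (Bad A F K Λ B) := by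
  have := countable_of_fin P.fin
  refine (sth_iUnion fun l : Λ => sth_transl ((h.clm B).sth_crit P.cpt) (B l)).mono ?_
  rintro _ ⟨k, hk, l, hl, h1, rfl⟩
  exact mem_iUnion.2 ⟨⟨l, hl⟩, k, ⟨hk, by rwa [h.tg_clm]⟩, by simp⟩

theorem exists_pos_le {κ : Type*} {T : Set κ} (hT : T.Finite) (ρ : κ → ℝ) (h : ∀ l ∈ T, 0 < ρ l) :
    ∃ ρ₀ > 0, ∀ l ∈ T, ρ₀ ≤ ρ l := by
  have h1 : ∀ᶠ t in 𝓝[>] (0 : ℝ), ∀ l ∈ T, t ≤ ρ l := (Filter.eventually_all_finite hT).2
    fun l hl => mem_nhdsWithin_of_mem_nhds (Iic_mem_nhds (h l hl))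
  obtain ⟨t, h2, h3⟩ := (h1.and self_mem_nhdsWithin).exists
  exact ⟨t, h3, h2⟩

theorem Per.locG (P : Per F K Λ) (h : HolV A F) (B : W →L[ℂ] X)
    (hr : ∀ y, finrank ℂ (Tg A F y) ≤ finrank ℂ X) {p : W} (hp : B p ∉ Bad A F K Λ B) :
    LocG B (range F) p := by
  classical
  have hFc := h.continuous
  -- one translate
  have key : ∀ l ∈ Λ, ∃ S : Set (X → W), S.Finite ∧ ∃ ρ > 0, (∀ g ∈ S,
      AnalyticOnNhd ℂ g (ball (B p) ρ) ∧ ∀ u ∈ ball (B p) ρ, g u ∈ range F ∧ B (g u) = u) ∧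
      ∀ᶠ w in 𝓝 p, ∀ k ∈ K, w = F k + l → ∃ g ∈ S, w = g (B w) := by
    intro l hl
    set Kl : Set M := K ∩ {k | F k + l = p} with hKl
    have hKlc : IsCompact Kl := P.cpt.inter_right (isClosed_eq (by fun_prop) continuous_const)
    have h1 : ∀ k ∈ Kl, ∃ ρ > 0, ∃ g : X → W, (AnalyticOnNhd ℂ g (ball (B p) ρ) ∧
        ∀ u ∈ ball (B p) ρ, g u ∈ range F ∧ B (g u) = u) ∧
        ∀ᶠ y in 𝓝 k, F y + l = g (B (F y + l)) := by
      rintro k ⟨hk, hkp⟩
      have hkp' : F k + l = p := hkp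
      obtain ⟨ρ, hρ, g, σ, a1, -, -, a3, a4⟩ := h.graph (x := k) B hr (by
        by_contra hcon
        exact hp ⟨k, hk, l, hl, hcon, by rw [hkp']⟩)
      have hm : ∀ u ∈ ball (B p) ρ, u - B l ∈ ball (B (F k)) ρ := by
        intro u hu
        rw [mem_ball, dist_eq_norm] at hu ⊢
        rwa [← hkp', map_add, add_comm, ← sub_sub] at hu
      refine ⟨ρ, hρ, fun u => g (u - B l) + l, ⟨fun u hu => ?_, fun u hu => ⟨?_, ?_⟩⟩, ?_⟩
      · exact (AnalyticAt.comp (g := g) (f := fun u => u - B l) (a1 _ (hm u hu))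
          (by fun_prop)).add analyticAt_const
      · exact P.add_mem _ ⟨_, (a3 _ (hm u hu)).1.symm⟩ l hl
      · rw [map_add, (a3 _ (hm u hu)).2.1, sub_add_cancel]
      · filter_upwards [a4] with y hy
        rw [map_add, add_sub_cancel_right, ← hy]
    choose! ρ hρ g hg hev using h1
    obtain ⟨t, htK, ht⟩ := hKlc.elim_nhds_subcover
      (fun k => interior {y | F y + l = g k (B (F y + l))})
      fun k hk => interior_mem_nhds.2 (hev k hk)
    obtain ⟨ρ₀, hρ₀, hρ₀'⟩ := exists_pos_le t.finite_toSet ρ fun k hk => hρ k (htK k hk)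
    refine ⟨g '' t, t.finite_toSet.image _, ρ₀, hρ₀, ?_, ?_⟩
    · rintro _ ⟨k, hk, rfl⟩
      have hsub := ball_subset_ball (x := B p) (hρ₀' k hk)
      exact ⟨(hg k (htK k hk)).1.mono hsub, fun u hu => (hg k (htK k hk)).2 u (hsub hu)⟩
    · set K' : Set M := K \ ⋃ k ∈ t, interior {y | F y + l = g k (B (F y + l))} with hK'
      have hK'c : IsCompact ((fun k => F k + l) '' K') :=
        (P.cpt.diff (isOpen_biUnion fun _ _ => isOpen_interior)).image (by fun_prop)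
      have hpK : p ∉ (fun k => F k + l) '' K' := by
        rintro ⟨k, hk, hkp⟩
        exact hk.2 (ht ⟨hk.1, hkp⟩)
      filter_upwards [hK'c.isClosed.isOpen_compl.mem_nhds hpK] with w hw k hk hwk
      have h3 : k ∈ ⋃ k ∈ t, interior {y | F y + l = g k (B (F y + l))} := by
        by_contra hcon
        exact hw ⟨k, ⟨hk, hcon⟩, hwk.symm⟩
      obtain ⟨k', hk', hkk'⟩ := mem_iUnion₂.1 h3
      refine ⟨g k', ⟨k', hk', rfl⟩, ?_⟩
      rw [hwk]
      exact interior_subset (s := {y | F y + l = g k' (B (F y + l))}) hkk'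
  choose! S hS ρ hρ hg hev using key
  obtain ⟨T, hT, hTΛ, hTev⟩ := loc_fin P.fin (P.cpt.image hFc) p
  obtain ⟨ρ₀, hρ₀, hρ₀'⟩ := exists_pos_le hT ρ fun l hl => hρ l (hTΛ hl)
  refine ⟨⋃ l ∈ T, S l, hT.biUnion fun l hl => hS l (hTΛ hl), ρ₀, hρ₀, ?_, ?_⟩
  · intro g hgS
    obtain ⟨l, hl, hgl⟩ := mem_iUnion₂.1 hgS
    have hsub := ball_subset_ball (x := B p) (hρ₀' l hl)
    exact ⟨(hg l (hTΛ hl) g hgl).1.mono hsub, fun u hu => (hg l (hTΛ hl) g hgl).2 u (hsub hu)⟩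
  · filter_upwards [hTev, (Filter.eventually_all_finite hT).2 fun l hl => hev l (hTΛ hl)]
      with w h1 h2
    rintro ⟨x, rfl⟩
    obtain ⟨k, hk, l, hl, e⟩ := P.cov x
    have hlT := h1 _ ⟨k, hk, rfl⟩ l hl e
    obtain ⟨g, hg1, hg2⟩ := h2 l hlT k hk e
    exact ⟨g, mem_iUnion₂.2 ⟨l, hlT, hg1⟩, hg2⟩

/-- a map which is submersive at one point is onto -/
theorem Per.surjective (P : Per F K Λ) (h : HolV A F) (hx : Tg A F x = ⊤) :
    Function.Surjective F := by
  have hr : ∀ y, finrank ℂ (Tg A F y) ≤ finrank ℂ W := fun y => Submodule.finrank_le _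
  have hZ := P.isClosed h.continuous
  obtain ⟨ρ, hρ, g, σ, -, -, -, a3, -⟩ := h.graph (x := x) (ContinuousLinearMap.id ℂ W) hr
    (by rw [hx]; simp)
  have h0 : ∀ᶠ y in 𝓝 (F x), y ∈ range F := by
    filter_upwards [ball_mem_nhds (F x) hρ] with u hu
    exact ⟨σ u, (a3 u hu).1.symm.trans (a3 u hu).2.1⟩
  have hd := (P.sth_bad h (ContinuousLinearMap.id ℂ W)).dense_line (F x)
  have h1 : {v : W | {t : ℂ | F x + t • v ∈ Bad A F K Λ (ContinuousLinearMap.id ℂ W)}.Countable} ⊆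
      (fun v => F x + v) ⁻¹' range F := by
    intro v hv
    have h2 := line_ext (B := ContinuousLinearMap.id ℂ W) (ψ := id) (γ := fun t : ℂ => F x + t • v)
      hZ (by fun_prop) (fun _ => analyticAt_id) (Set.Countable.mono ?_ hv) (by simpa using h0) 1
    · simpa using h2
    · rintro t ⟨-, ht⟩
      by_contra hcon
      exact ht (P.locG h _ hr hcon)
  intro w
  have h3 := closure_minimal h1 (hZ.preimage (by fun_prop)) (hd (w - F x))
  simpa using h3

end Crest.Agent.X261.Uen
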