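import Crest.Agent.R281.Thn3_280
import Crest.Agent.R281.Thn4_280

/-!
X261 / Uen / Thin (helper80): local graphs (constant rank theorem), sets which are locally finite
unions of graphs, analytic continuation along complex lines.
-/

set_option autoImplicit false
set_option linter.unusedSectionVars false

open Set Filter Topology Metric Module MeasureTheory

noncomputable section

namespace Crest.Agent.X261.Uen.Thin

open Crest.Agent.R281.Thn_280

/-- almost every vertical line meets a `σ`-thin set in a countable set -/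
theorem dense_vert {V : Type*} [NormedAddCommGroup V] [NormedSpace ℂ V] [FiniteDimensional ℂ V]
    {E : Set (V × ℂ)} (hE : STh E) : Dense {x : V | {t : ℂ | (x, t) ∈ E}.Countable} := by
  have : ProperSpace V := FiniteDimensional.proper ℂ V
  borelize V
  obtain ⟨K⟩ : Nonempty (TopologicalSpace.PositiveCompacts V) := inferInstance
  let μ : Measure V := Measure.addHaarMeasure K
  refine Measure.dense_of_ae (μ := μ) ?_
  obtain ⟨U, g, h1, h2⟩ := hE
  have hae : ∀ᵐ x ∂μ, ∀ j : ℕ, (volume : Measure ℂ) (Prod.mk x ⁻¹'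
      {z | z ∈ U j ∧ g j z = 0 ∧ fderiv ℂ (g j) z ≠ 0}) = 0 := by
    rw [ae_all_iff]; intro j
    exact Measure.measure_ae_null_of_prod_null
      (piece_null (μ.prod (volume : Measure ℂ)) (h1 j).1 (h1 j).2)
  filter_upwards [hae] with x hx
  have hsub : {t : ℂ | (x, t) ∈ E} ⊆
      ⋃ j, {t : ℂ | (x, t) ∈ U j ∧ g j (x, t) = 0 ∧ fderiv ℂ (g j) (x, t) ≠ 0} :=
    fun t ht => mem_iUnion.2 (h2 _ ht)
  refine (countable_iUnion (fun j => ?_)).mono hsub
  refine countable_of_isolated (fun t ht => ?_)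
  obtain ⟨ht1, ht2, ht3⟩ := ht
  have hline : Continuous (fun s : ℂ => (x, s)) := by fun_prop
  have hφ : AnalyticAt ℂ (fun s : ℂ => g j (x, s)) t := by
    have h4 : AnalyticAt ℂ (fun ζ : ℂ => (x, ζ)) t := analyticAt_const.prod analyticAt_id
    exact AnalyticAt.comp (g := g j) (f := fun ζ : ℂ => (x, ζ)) ((h1 j).2 _ ht1) h4
  rcases hφ.eventually_eq_zero_or_eventually_ne_zero with h5 | h5
  · exfalso
    have e1 : ∀ᶠ s in 𝓝 t, (x, s) ∈ U j := hline.continuousAt.eventually ((h1 j).1.mem_nhds ht1)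
    have e2 : ∀ᶠ s in 𝓝 t, fderiv ℂ (g j) (x, s) ≠ 0 := by
      have c1 : ContinuousAt (fderiv ℂ (g j)) (x, t) := ((h1 j).2 _ ht1).fderiv.continuousAt
      have c2 : ContinuousAt (fun s : ℂ => fderiv ℂ (g j) (x, s)) t :=
        ContinuousAt.comp (f := fun s : ℂ => (x, s)) c1 hline.continuousAt
      exact c2.eventually_ne ht3
    have e3 : Prod.mk x ⁻¹' {z | z ∈ U j ∧ g j z = 0 ∧ fderiv ℂ (g j) z ≠ 0} ∈ 𝓝 t := by
      filter_upwards [e1, h5, e2] with s a1 a2 a3 using ⟨a1, a2, a3⟩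
    exact (Measure.measure_pos_of_mem_nhds (volume : Measure ℂ) e3).ne' (hx j)
  · rw [eventually_nhdsWithin_iff] at h5
    refine ⟨_, h5, ?_⟩
    rintro s ⟨hs, hs2⟩
    by_contra hne
    exact hs hne hs2.2.1

/-- a finite family of continuous maps one of which vanishes at each point: one of them vanishes
on an open set -/
theorem exists_open_zero {Y W κ : Type*} [TopologicalSpace Y] [TopologicalSpace W] [T1Space W]
    [Zero W] {S : Set κ} (hS : S.Finite) (e : κ → Y → W) : ∀ {Q : Set Y}, IsOpen Q → Q.Nonempty →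
    (∀ i ∈ S, ContinuousOn (e i) Q) → (∀ y ∈ Q, ∃ i ∈ S, e i y = 0) →
    ∃ i ∈ S, ∃ Q' ⊆ Q, IsOpen Q' ∧ Q'.Nonempty ∧ ∀ y ∈ Q', e i y = 0 := by
  induction S, hS using Set.Finite.induction_on with
  | empty =>
    rintro Q _ ⟨y, hy⟩ _ h
    obtain ⟨i, hi, -⟩ := h y hy
    exact hi.elim
  | @insert a S _ _ ih =>
    intro Q hQ hne hc h
    by_cases ha : ∀ y ∈ Q, e a y = 0
    · exact ⟨a, mem_insert _ _, Q, subset_rfl, hQ, hne, ha⟩
    · push Not at ha
      obtain ⟨y, hy, hya⟩ := ha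
      have ho : IsOpen (Q ∩ e a ⁻¹' {0}ᶜ) :=
        (hc a (mem_insert _ _)).isOpen_inter_preimage hQ isOpen_compl_singleton
      obtain ⟨i, hi, Q', h1, h2, h3, h4⟩ := ih ho ⟨y, hy, hya⟩
        (fun i hi => (hc i (mem_insert_of_mem _ hi)).mono inter_subset_left) (by
          rintro z ⟨hz, hza⟩
          obtain ⟨i, hi | hi, hiz⟩ := h z hz
          · subst hi; exact (hza hiz).elim
          · exact ⟨i, hi, hiz⟩)
      exact ⟨i, mem_insert_of_mem _ hi, Q', h1.trans inter_subset_left, h2, h3, h4⟩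

variable {V W X : Type*} [NormedAddCommGroup V] [NormedSpace ℂ V] [FiniteDimensional ℂ V]
  [NormedAddCommGroup W] [NormedSpace ℂ W] [FiniteDimensional ℂ W]
  [NormedAddCommGroup X] [NormedSpace ℂ X] [FiniteDimensional ℂ X]

/-- rank of a continuous linear map -/
def rk (T : V →L[ℂ] W) : ℕ := finrank ℂ (LinearMap.range (T : V →ₗ[ℂ] W))

/-- if `B ∘ T` is onto `X` and the rank of `T` is at most `dim X`, `B` is injective on the image
of `T` -/
theorem inj_of_rk {T : V →L[ℂ] W} {B : W →L[ℂ] X} (hs : ∀ x, ∃ v, B (T v) = x)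
    (hr : rk T ≤ finrank ℂ X) {v : V} (hv : B (T v) = 0) : T v = 0 := by
  set b : LinearMap.range (T : V →ₗ[ℂ] W) →ₗ[ℂ] X :=
    (B : W →ₗ[ℂ] X) ∘ₗ (LinearMap.range (T : V →ₗ[ℂ] W)).subtype with hb
  have hbs : Function.Surjective b := by
    intro x
    obtain ⟨w, hw⟩ := hs x
    exact ⟨⟨T w, ⟨w, rfl⟩⟩, hw⟩
  have h3 : finrank ℂ (LinearMap.range (T : V →ₗ[ℂ] W)) = finrank ℂ X :=
    le_antisymm hr (LinearMap.finrank_le_finrank_of_surjective hbs)
  have hbi : Function.Injective b :=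
    (LinearMap.injective_iff_surjective_of_finrank_eq_finrank h3).2 hbs
  have h8 : b ⟨T v, ⟨v, rfl⟩⟩ = b 0 := by rw [map_zero]; exact hv
  exact congrArg Subtype.val (hbi h8)

theorem le_rk {T : V →L[ℂ] W} {B : W →L[ℂ] X} (hs : ∀ x, ∃ v, B (T v) = x) :
    finrank ℂ X ≤ rk T := by
  refine LinearMap.finrank_le_finrank_of_surjective
    (f := (B : W →ₗ[ℂ] X) ∘ₗ (LinearMap.range (T : V →ₗ[ℂ] W)).subtype) fun x => ?_
  obtain ⟨w, hw⟩ := hs x
  exact ⟨⟨T w, ⟨w, rfl⟩⟩, hw⟩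

/-- **constant rank theorem**: local graph -/
theorem locGraph {Φ : V → W} {N : Set V} (hNo : IsOpen N) (hΦ : AnalyticOnNhd ℂ Φ N) {z₂ : V}
    (hz₂ : z₂ ∈ N) (B : W →L[ℂ] X) (hs : ∀ x, ∃ v, B (fderiv ℂ Φ z₂ v) = x)
    (hr : ∀ z ∈ N, rk (fderiv ℂ Φ z) ≤ finrank ℂ X) :
    ∃ ρ > 0, ∃ σ : X → V, AnalyticOnNhd ℂ σ (ball (B (Φ z₂)) ρ) ∧ σ (B (Φ z₂)) = z₂ ∧
      (∀ u ∈ ball (B (Φ z₂)) ρ, σ u ∈ N ∧ B (Φ (σ u)) = u) ∧
      ∀ᶠ z in 𝓝 z₂, Φ z = Φ (σ (B (Φ z))) := by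
  have : CompleteSpace V := FiniteDimensional.complete ℂ V
  have : CompleteSpace W := FiniteDimensional.complete ℂ W
  have : CompleteSpace X := FiniteDimensional.complete ℂ X
  set F : V → X := fun z => B (Φ z) with hFdef
  have hFa : AnalyticOnNhd ℂ F N := fun z hz => (B.analyticAt _).comp (hΦ z hz)
  have hFd : ∀ z ∈ N, fderiv ℂ F z = B.comp (fderiv ℂ Φ z) := fun z hz =>
    (B.hasFDerivAt.comp z (hΦ z hz).differentiableAt.hasFDerivAt).fderiv
  set L : V →L[ℂ] X := fderiv ℂ F z₂ with hLdef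
  obtain ⟨A0, hA0⟩ := (L : V →ₗ[ℂ] X).exists_rightInverse_of_surjective (by
    rw [LinearMap.range_eq_top]
    intro x
    obtain ⟨v, hv⟩ := hs x
    exact ⟨v, by change L v = x; rw [hLdef, hFd z₂ hz₂]; exact hv⟩)
  set A : X →L[ℂ] V := LinearMap.toContinuousLinearMap A0 with hAdef
  have hLA : ∀ x, L (A x) = x := fun x => LinearMap.congr_fun hA0 x
  obtain ⟨O, O', G, hOo, hO'o, hzO, hON, hGa, h1, h2⟩ :=
    straighten (hNo.mem_nhds hz₂) hFa L rfl A hLA
  set w₀ : V := z₂ + A (F z₂ - L z₂) with hw₀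
  have hw₀O : w₀ ∈ O' := (h1 z₂ hzO).1
  have hGw₀ : G w₀ = z₂ := (h1 z₂ hzO).2.1
  have hLw₀ : L w₀ = F z₂ := (h1 z₂ hzO).2.2
  obtain ⟨ε, hε, hεO⟩ := Metric.isOpen_iff.1 hO'o w₀ hw₀O
  set τ : X → V := fun c => w₀ + A (c - F z₂) with hτ
  have hτc : Continuous τ := by fun_prop
  have hτ0 : τ (F z₂) = w₀ := by simp [hτ]
  have hLτ : ∀ c, L (τ c) = c := by
    intro c
    simp only [hτ, map_add, hLA, hLw₀]
    abel
  have hkey : ∀ w ∈ ball w₀ ε, τ (L w) ∈ ball w₀ ε → Φ (G w) = Φ (G (τ (L w))) := by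
    intro w hw hPw
    set k : V := τ (L w) - w with hk
    have hLk : L k = 0 := by rw [hk, map_sub, hLτ, sub_self]
    have hmem : ∀ t ∈ Icc (0 : ℝ) 1, w + (t : ℂ) • k ∈ ball w₀ ε := by
      intro t ht
      have h3 : w + (t : ℂ) • k = (1 - t) • w + t • τ (L w) := by
        have h4 : (t : ℂ) • k = t • k := by rw [← Complex.coe_smul]
        rw [h4, hk, sub_smul, one_smul, smul_sub]
        abel
      rw [h3]
      exact (convex_ball w₀ ε) hw hPw (by linarith [ht.2]) ht.1 (by ring)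
    have hder : ∀ t ∈ Icc (0 : ℝ) 1, HasDerivAt (fun s : ℝ => Φ (G (w + (s : ℂ) • k))) 0 t := by
      intro t ht
      set w' := w + (t : ℂ) • k with hw'
      have hw'O : w' ∈ O' := hεO (hmem t ht)
      have hGN : G w' ∈ N := hON (h2 w' hw'O).1
      have hGd : HasFDerivAt G (fderiv ℂ G w') w' := (hGa w' hw'O).differentiableAt.hasFDerivAt
      have hΦd : HasFDerivAt Φ (fderiv ℂ Φ (G w')) (G w') :=
        (hΦ _ hGN).differentiableAt.hasFDerivAt
      have hc : HasFDerivAt (fun w => Φ (G w)) ((fderiv ℂ Φ (G w')).comp (fderiv ℂ G w')) w' :=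
        hΦd.comp w' hGd
      have hFG : HasFDerivAt (fun w => F (G w)) (B.comp ((fderiv ℂ Φ (G w')).comp (fderiv ℂ G w')))
          w' := B.hasFDerivAt.comp w' hc
      have hFG' : HasFDerivAt (fun w => F (G w)) L w' := by
        refine L.hasFDerivAt.congr_of_eventuallyEq ?_
        filter_upwards [hO'o.mem_nhds hw'O] with x hx using (h2 x hx).2.2
      have heq : ∀ v, B (fderiv ℂ Φ (G w') (fderiv ℂ G w' v)) = L v := fun v =>
        congrArg (fun T : V →L[ℂ] X => T v) (hFG.unique hFG')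
      have h0' : fderiv ℂ Φ (G w') (fderiv ℂ G w' k) = 0 :=
        inj_of_rk (fun x => ⟨_, (heq (A x)).trans (hLA x)⟩) (hr _ hGN) ((heq k).trans hLk)
      have hline : HasDerivAt (fun s : ℝ => w + (s : ℂ) • k) k t := by
        have := ((Complex.ofRealCLM.hasDerivAt (x := t)).smul_const k).const_add w
        simpa using this
      have h5 := (hc.restrictScalars ℝ).comp_hasDerivAt t hline
      have h6 : (((fderiv ℂ Φ (G w')).comp (fderiv ℂ G w')).restrictScalars ℝ) k = 0 := h0'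
      rw [h6] at h5
      exact h5
    have hconst := constant_of_has_deriv_right_zero (f := fun s : ℝ => Φ (G (w + (s : ℂ) • k)))
      (a := 0) (b := 1) (fun t ht => (hder t ht).continuousAt.continuousWithinAt)
      (fun t ht => (hder t ⟨ht.1, ht.2.le⟩).hasDerivWithinAt) 1 ⟨zero_le_one, le_refl 1⟩
    simp only [Complex.ofReal_one, one_smul, Complex.ofReal_zero, zero_smul, add_zero] at hconst
    rw [← hconst, hk, add_sub_cancel]
  have hτn : τ ⁻¹' ball w₀ ε ∈ 𝓝 (F z₂) :=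
    hτc.continuousAt.preimage_mem_nhds (by rw [hτ0]; exact ball_mem_nhds w₀ hε)
  obtain ⟨ρ, hρ, hρs⟩ := Metric.mem_nhds_iff.1 hτn
  refine ⟨ρ, hρ, fun c => G (τ c), fun c hc => ?_, by change G (τ (F z₂)) = z₂; rw [hτ0, hGw₀],
    fun c hc => ⟨hON (h2 _ (hεO (hρs hc))).1, ?_⟩, ?_⟩
  · have a1 : AnalyticAt ℂ τ c :=
      analyticAt_const.add ((A.analyticAt _).comp (analyticAt_id.sub analyticAt_const))
    exact AnalyticAt.comp (g := G) (f := τ) (hGa _ (hεO (hρs hc))) a1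
  · exact ((h2 _ (hεO (hρs hc))).2.2).trans (hLτ c)
  · have hFc : ContinuousAt F z₂ := (hFa z₂ hz₂).continuousAt
    have hΨc : ContinuousAt (fun z => z + A (F z - L z)) z₂ := by fun_prop
    filter_upwards [hΨc.eventually (ball_mem_nhds w₀ hε), hFc.eventually hτn,
      hOo.mem_nhds hzO] with z e1 e2 e3
    have hk := hkey _ e1 (by rw [(h1 z e3).2.2]; exact e2)
    rw [(h1 z e3).2.1, (h1 z e3).2.2] at hk
    exact hk

/-- near `p`, the set `Z` is a finite union of graphs over the coordinates `B` -/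
def LocG (B : W →L[ℂ] X) (Z : Set W) (p : W) : Prop :=
  ∃ S : Set (X → W), S.Finite ∧ ∃ ρ > 0, (∀ g ∈ S, AnalyticOnNhd ℂ g (ball (B p) ρ) ∧
    ∀ u ∈ ball (B p) ρ, g u ∈ Z ∧ B (g u) = u) ∧ ∀ᶠ w in 𝓝 p, w ∈ Z → ∃ g ∈ S, w = g (B w)

variable {B : W →L[ℂ] X} {Z : Set W}

theorem LocG.ext {Y : Type*} [NormedAddCommGroup Y] [NormedSpace ℂ Y] {ψ : Y → W} {y₀ : Y}
    (h : LocG B Z (ψ y₀)) (hψ : AnalyticAt ℂ ψ y₀)
    (hf : ∃ᶠ y in 𝓝 y₀, ∀ᶠ y' in 𝓝 y, ψ y' ∈ Z) : ∀ᶠ y in 𝓝 y₀, ψ y ∈ Z := by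
  have : CompleteSpace W := FiniteDimensional.complete ℂ W
  obtain ⟨S, hS, ρ, hρ, hg, hw⟩ := h
  have e1 : ∀ᶠ y in 𝓝 y₀, B (ψ y) ∈ ball (B (ψ y₀)) ρ :=
    (B.continuous.continuousAt.comp hψ.continuousAt).eventually (ball_mem_nhds _ hρ)
  have e2 := hψ.continuousAt.eventually hw
  obtain ⟨δ, hδ, hb⟩ := Metric.mem_nhds_iff.1 ((e1.and e2).and hψ.eventually_analyticAt)
  obtain ⟨y₁, hy₁, hy₁b⟩ := (hf.and_eventually (ball_mem_nhds y₀ hδ)).exists
  obtain ⟨Q, hQ1, hQo, hQy⟩ := _root_.eventually_nhds_iff.1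
    (hy₁.and (isOpen_ball.mem_nhds hy₁b))
  have ha : ∀ g ∈ S, AnalyticOnNhd ℂ (fun y => ψ y - g (B (ψ y))) (ball y₀ δ) := by
    intro g hgS y hy
    have a1 : AnalyticAt ℂ (fun y => B (ψ y)) y := (B.analyticAt _).comp (hb hy).2
    exact (hb hy).2.sub (AnalyticAt.comp (g := g) (f := fun y => B (ψ y))
      ((hg g hgS).1 _ (hb hy).1.1) a1)
  obtain ⟨g, hgS, Q', h1, h2, ⟨y₂, hy₂⟩, h4⟩ := exists_open_zero hS
    (fun g y => ψ y - g (B (ψ y))) hQo ⟨y₁, hQy⟩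
    (fun g hgS => (ha g hgS).continuousOn.mono fun y hy => (hQ1 y hy).2) (by
      intro y hy
      obtain ⟨g, hgS, hgy⟩ := (hb (hQ1 y hy).2).1.2 (hQ1 y hy).1
      exact ⟨g, hgS, sub_eq_zero.2 hgy⟩)
  have h5 := (ha g hgS).eqOn_zero_of_preconnected_of_eventuallyEq_zero
    (convex_ball y₀ δ).isPreconnected (hQ1 _ (h1 hy₂)).2
    (by filter_upwards [h2.mem_nhds hy₂] with y hy using h4 y hy)
  filter_upwards [ball_mem_nhds y₀ hδ] with y hy
  have h6 : ψ y = g (B (ψ y)) := sub_eq_zero.1 (h5 hy)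
  rw [h6]
  exact ((hg g hgS).2 _ (hb hy).1.1).1

/-- continuation along a curve parametrised by `ℂ` -/
theorem line_ext {Y : Type*} [NormedAddCommGroup Y] [NormedSpace ℂ Y] {ψ : Y → W} {γ : ℂ → Y}
    (hZ : IsClosed Z) (hγ : Continuous γ) (hψ : ∀ t, AnalyticAt ℂ ψ (γ t))
    (hc : {t | ψ (γ t) ∈ Z ∧ ¬ LocG B Z (ψ (γ t))}.Countable)
    (h0 : ∀ᶠ y in 𝓝 (γ 0), ψ y ∈ Z) (t : ℂ) : ψ (γ t) ∈ Z := by
  set E := {t | ψ (γ t) ∈ Z ∧ ¬ LocG B Z (ψ (γ t))} with hE
  set G := {t | ∀ᶠ y in 𝓝 (γ t), ψ y ∈ Z} with hG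
  have hGo : IsOpen G := by
    have : G = γ ⁻¹' interior {y | ψ y ∈ Z} := by
      ext t; simp [hG, mem_interior_iff_mem_nhds, Filter.Eventually]
    rw [this]
    exact isOpen_interior.preimage hγ
  have hcont : Continuous fun t => ψ (γ t) :=
    continuous_iff_continuousAt.2 fun t => (hψ t).continuousAt.comp hγ.continuousAt
  have hGZ : closure G ⊆ {t | ψ (γ t) ∈ Z} :=
    closure_minimal (fun t ht => ht.self_of_nhds) (hZ.preimage hcont)
  have hcon : IsPreconnected Eᶜ :=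
    (hc.isConnected_compl_of_one_lt_rank (by simp)).isPreconnected
  have hd : Dense Eᶜ := hc.dense_compl ℂ
  have hsub : Eᶜ ⊆ G := by
    refine hcon.subset_of_closure_inter_subset hGo ?_ ?_
    · obtain ⟨s, hs1, hs2⟩ := hd.inter_open_nonempty G hGo ⟨0, h0⟩
      exact ⟨s, hs2, hs1⟩
    · rintro s ⟨hs, hsE⟩
      have hl : LocG B Z (ψ (γ s)) := by
        by_contra hcon
        exact hsE ⟨hGZ hs, hcon⟩
      refine hl.ext (hψ s) ?_
      rw [mem_closure_iff_frequently] at hs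
      exact hγ.continuousAt.tendsto.frequently_map _ (fun _ h => h) hs
  exact hGZ (hd.mono hsub t)

end Crest.Agent.X261.Uen.Thin
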